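import Vale.Agent.Lib.H26P321.Defs

namespace Vale.Agent.H26P321

open Finset

/-- Endomorphisms of the space of functions on finite binary strings. -/
abbrev Alg := Module.End ℝ (List Bool → ℝ)

/-- Right translation by the string `u`. -/
def io (u : List Bool) : Alg where
  toFun F := fun w => F (w ++ u)
  map_add' _ _ := rfl
  map_smul' _ _ := rfl

theorem io_apply (u : List Bool) (F : List Bool → ℝ) (w : List Bool) :
    io u F w = F (w ++ u) := rfl

theorem io_nil : io [] = 1 := by
  apply LinearMap.ext
  intro F
  funext w
  simp [io_apply]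

theorem io_append (u v : List Bool) : io (u ++ v) = io u * io v := by
  apply LinearMap.ext
  intro F
  funext w
  simp [io_apply, Module.End.mul_apply]

/-- The law of the trace of a single bit. -/
noncomputable def step (q : ℝ) (b : Bool) : Alg := q • 1 + (1 - q) • io [b]

/-- The law of the trace of a string. -/
noncomputable def law (q : ℝ) (l : List Bool) : Alg := (l.map (step q)).prod

theorem law_nil (q : ℝ) : law q [] = 1 := rfl

theorem law_cons (q : ℝ) (b : Bool) (l : List Bool) :
    law q (b :: l) = step q b * law q l := by
  simp [law]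

theorem law_append (q : ℝ) (l₁ l₂ : List Bool) :
    law q (l₁ ++ l₂) = law q l₁ * law q l₂ := by
  simp [law]

theorem trace_cons {n : ℕ} (x : Fin (n + 1) → Bool) (b : Bool) (K : Fin n → Bool) :
    trace x (Fin.cons b K) = (if b then [x 0] else []) ++ trace (Fin.tail x) K := by
  unfold trace
  rw [List.finRange_succ]
  cases b
  · simp only [List.filter_cons, Fin.cons_zero, Bool.false_eq_true, ↓reduceIte,
      List.nil_append, List.filter_map, List.map_map]
    congr 1
  · simp only [List.filter_cons, Fin.cons_zero, ↓reduceIte, List.map_cons,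
      List.filter_map, List.map_map, List.singleton_append]
    congr 1

theorem maskWeight_cons (q : ℝ) {n : ℕ} (b : Bool) (K : Fin n → Bool) :
    maskWeight q (Fin.cons b K : Fin (n + 1) → Bool) =
      (if b then 1 - q else q) * maskWeight q K := by
  unfold maskWeight
  rw [Fin.prod_univ_succ]
  simp

theorem sum_cons {α M : Type*} [Fintype α] [AddCommMonoid M] (n : ℕ)
    (f : (Fin (n + 1) → α) → M) :
    ∑ K : Fin (n + 1) → α, f K = ∑ a : α, ∑ K : Fin n → α, f (Fin.cons a K) := by
  rw [← Fintype.sum_prod_type']
  exact (Fintype.sum_equiv (Fin.consEquiv (fun _ => α)) _ _ (fun _ => rfl)).symm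

theorem trace_repr (q : ℝ) (n : ℕ) (x : Fin n → Bool) :
    ∑ K : Fin n → Bool, maskWeight q K • io (trace x K) = law q (List.ofFn x) := by
  induction n with
  | zero =>
    simp [maskWeight, trace, io_nil, law]
  | succ n ih =>
    rw [sum_cons, List.ofFn_succ, law_cons]
    have h := ih (Fin.tail x)
    have h2 : (List.ofFn fun i : Fin n => x i.succ) = List.ofFn (Fin.tail x) := rfl
    rw [h2, ← h]
    simp only [maskWeight_cons, trace_cons, io_append, step]
    simp only [Fintype.sum_bool, ↓reduceIte, Bool.false_eq_true, io_nil, one_mul]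
    rw [add_mul, Finset.mul_sum, Finset.mul_sum, add_comm]
    congr 1
    · apply Finset.sum_congr rfl
      intro K _
      rw [smul_mul_assoc, one_mul, mul_smul]
    · apply Finset.sum_congr rfl
      intro K _
      rw [smul_mul_assoc, mul_smul_comm, mul_smul]

end Vale.Agent.H26P321
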