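import Vale.Agent.Lib.H26P321.Core

namespace Vale.Agent.H26P321

open Finset

/-- Normalized Catalan weight. -/
noncomputable def kap (D : ℕ) : ℝ := cat D / 4 ^ D

theorem kap_nonneg (D : ℕ) : 0 ≤ kap D := div_nonneg (cat_nonneg D) (by positivity)

theorem central_sq (D : ℕ) : ((Nat.centralBinom D : ℝ) / 4 ^ D) ^ 2 * (D + 1) ≤ 1 := by
  induction D with
  | zero => simp
  | succ D ih =>
    have h := Nat.succ_mul_centralBinom_succ D
    have h2 : ((D : ℝ) + 1) * Nat.centralBinom (D + 1) = 2 * (2 * D + 1) * Nat.centralBinom D := by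
      exact_mod_cast h
    have hD : (0 : ℝ) < D + 1 := by positivity
    have h3 : ((Nat.centralBinom (D + 1) : ℝ) / 4 ^ (D + 1)) =
        ((Nat.centralBinom D : ℝ) / 4 ^ D) * ((2 * D + 1) / (2 * (D + 1))) := by
      have : (Nat.centralBinom (D + 1) : ℝ) = 2 * (2 * D + 1) * Nat.centralBinom D / (D + 1) := by
        field_simp
        linarith
      rw [this, pow_succ]
      field_simp
      ring
    rw [h3]
    push_cast
    have h4 : ((2 * (D : ℝ) + 1) / (2 * (D + 1))) ^ 2 * (D + 1 + 1) ≤ (D + 1) := by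
      rw [div_pow, div_mul_eq_mul_div, div_le_iff₀ (by positivity)]
      have : (0 : ℝ) ≤ D := Nat.cast_nonneg D
      nlinarith [this, mul_nonneg this this]
    calc (((Nat.centralBinom D : ℝ) / 4 ^ D) * ((2 * D + 1) / (2 * (D + 1)))) ^ 2 * (D + 1 + 1)
        = ((Nat.centralBinom D : ℝ) / 4 ^ D) ^ 2 *
          (((2 * (D : ℝ) + 1) / (2 * (D + 1))) ^ 2 * (D + 1 + 1)) := by ring
      _ ≤ ((Nat.centralBinom D : ℝ) / 4 ^ D) ^ 2 * (D + 1) :=
          mul_le_mul_of_nonneg_left h4 (sq_nonneg _)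
      _ ≤ 1 := ih

theorem kap_le (D : ℕ) {t : ℝ} (ht : 0 < t) :
    kap D ≤ (t / 2) * (1 / ((D + 1) * (D + 1))) + (1 / (2 * t)) * (1 / (D + 1)) := by
  have hD : (0 : ℝ) < D + 1 := by positivity
  set τ : ℝ := (Nat.centralBinom D : ℝ) / 4 ^ D with hτ
  have h1 : τ ^ 2 * (D + 1) ≤ 1 := central_sq D
  have e : kap D = τ * (1 / (D + 1)) := by
    unfold kap cat
    rw [hτ]
    field_simp
  have h2 : τ ^ 2 ≤ 1 / (D + 1) := by
    rw [le_div_iff₀ hD]
    exact h1
  have h3 : τ ≤ (t / 2) * (1 / (D + 1)) + 1 / (2 * t) := by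
    have h4 : τ ≤ (t / 2) * τ ^ 2 + 1 / (2 * t) := by
      have : (t / 2) * τ ^ 2 + 1 / (2 * t) - τ = (t * τ - 1) ^ 2 / (2 * t) := by
        field_simp
        ring
      have h5 : 0 ≤ (t * τ - 1) ^ 2 / (2 * t) := by positivity
      linarith
    have h6 : (t / 2) * τ ^ 2 ≤ (t / 2) * (1 / (D + 1)) :=
      mul_le_mul_of_nonneg_left h2 (by positivity)
    linarith
  rw [e]
  calc τ * (1 / (D + 1)) ≤ ((t / 2) * (1 / (D + 1)) + 1 / (2 * t)) * (1 / (D + 1)) :=
        mul_le_mul_of_nonneg_right h3 (by positivity)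
    _ = _ := by
        field_simp

theorem binom_one (r : ℝ) (K : ℕ) :
    ∑ D ∈ range (K + 1), (K.choose D : ℝ) * r ^ D * (1 - r) ^ (K - D) = 1 := by
  have h := add_pow r (1 - r) K
  have e : r + (1 - r) = 1 := by ring
  rw [e, one_pow] at h
  refine Eq.trans ?_ h.symm
  apply Finset.sum_congr rfl
  intro D _
  ring

theorem choose_div (K D : ℕ) : (K.choose D : ℝ) * (1 / (D + 1)) =
    ((K + 1).choose (D + 1) : ℝ) / (K + 1) := by
  have h := Nat.add_one_mul_choose_eq K D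
  have h2 : ((K : ℝ) + 1) * K.choose D = (K + 1).choose (D + 1) * (D + 1) := by
    exact_mod_cast h
  field_simp
  linarith

theorem binom_inv {r : ℝ} (h0 : 0 < r) (h1 : r ≤ 1) (K : ℕ) :
    ∑ D ∈ range (K + 1), (K.choose D : ℝ) * r ^ D * (1 - r) ^ (K - D) * (1 / (D + 1)) ≤
      1 / ((K + 1) * r) := by
  have hK : (0 : ℝ) < K + 1 := by positivity
  have h := binom_one r (K + 1)
  rw [Finset.sum_range_succ'] at h
  have e : ∀ D ∈ range (K + 1), (K.choose D : ℝ) * r ^ D * (1 - r) ^ (K - D) * (1 / (D + 1)) =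
      (1 / ((K + 1) * r)) * (((K + 1).choose (D + 1) : ℝ) * r ^ (D + 1) *
        (1 - r) ^ (K + 1 - (D + 1))) := by
    intro D _
    have := choose_div K D
    calc (K.choose D : ℝ) * r ^ D * (1 - r) ^ (K - D) * (1 / (D + 1))
        = ((K.choose D : ℝ) * (1 / (D + 1))) * r ^ D * (1 - r) ^ (K - D) := by ring
      _ = _ := by
        rw [this, Nat.add_sub_add_right, pow_succ]
        field_simp
  rw [Finset.sum_congr rfl e, ← Finset.mul_sum]
  have h2 : 0 ≤ ((K + 1).choose 0 : ℝ) * r ^ 0 * (1 - r) ^ (K + 1 - 0) := by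
    have : 0 ≤ 1 - r := by linarith
    positivity
  have h3 : ∑ D ∈ range (K + 1), ((K + 1).choose (D + 1) : ℝ) * r ^ (D + 1) *
        (1 - r) ^ (K + 1 - (D + 1)) ≤ 1 := by linarith
  calc (1 / ((K + 1) * r)) * ∑ D ∈ range (K + 1), ((K + 1).choose (D + 1) : ℝ) * r ^ (D + 1) *
        (1 - r) ^ (K + 1 - (D + 1)) ≤ (1 / ((K + 1) * r)) * 1 :=
        mul_le_mul_of_nonneg_left h3 (by positivity)
    _ = _ := mul_one _

theorem binom_inv_two {r : ℝ} (h0 : 0 < r) (h1 : r ≤ 1) (K : ℕ) :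
    ∑ D ∈ range (K + 1), (K.choose D : ℝ) * r ^ D * (1 - r) ^ (K - D) *
      (1 / ((D + 1) * (D + 1))) ≤ 2 / ((K + 1) * (K + 2) * r ^ 2) := by
  have hK : (0 : ℝ) < K + 1 := by positivity
  have hr : 0 ≤ 1 - r := by linarith
  have h := binom_one r (K + 2)
  rw [Finset.sum_range_succ', Finset.sum_range_succ'] at h
  have e : ∀ D ∈ range (K + 1), (K.choose D : ℝ) * r ^ D * (1 - r) ^ (K - D) *
      (1 / ((D + 1) * (D + 1))) ≤
      (2 / ((K + 1) * (K + 2) * r ^ 2)) * (((K + 2).choose (D + 1 + 1) : ℝ) * r ^ (D + 1 + 1) *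
        (1 - r) ^ (K + 2 - (D + 1 + 1))) := by
    intro D _
    have e1 := choose_div K D
    have e2 := choose_div (K + 1) (D + 1)
    push_cast at e2
    have e3 : (K.choose D : ℝ) * (1 / ((D + 1) * (D + 1 + 1))) =
        ((K + 2).choose (D + 1 + 1) : ℝ) / ((K + 1) * (K + 2)) := by
      have : (K.choose D : ℝ) * (1 / ((D + 1) * (D + 1 + 1))) =
          (((K + 1).choose (D + 1) : ℝ) * (1 / (D + 1 + 1))) / (K + 1) := by
        calc (K.choose D : ℝ) * (1 / ((D + 1) * (D + 1 + 1)))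
            = ((K.choose D : ℝ) * (1 / (D + 1))) * (1 / (D + 1 + 1)) := by
              field_simp
          _ = _ := by
              rw [e1]
              ring
      rw [this, e2]
      have h9 : ((K : ℝ) + 1 + 1) = K + 2 := by ring
      rw [h9]
      field_simp
    have e4 : (1 : ℝ) / ((D + 1) * (D + 1)) ≤ 2 * (1 / ((D + 1) * (D + 1 + 1))) := by
      rw [mul_one_div, div_le_div_iff₀ (by positivity) (by positivity)]
      have : (0 : ℝ) ≤ D := Nat.cast_nonneg D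
      nlinarith
    calc (K.choose D : ℝ) * r ^ D * (1 - r) ^ (K - D) * (1 / ((D + 1) * (D + 1)))
        ≤ (K.choose D : ℝ) * r ^ D * (1 - r) ^ (K - D) *
            (2 * (1 / ((D + 1) * (D + 1 + 1)))) :=
          mul_le_mul_of_nonneg_left e4 (by positivity)
      _ = 2 * ((K.choose D : ℝ) * (1 / ((D + 1) * (D + 1 + 1)))) * r ^ D * (1 - r) ^ (K - D) := by
          ring
      _ = _ := by
          rw [e3, show K + 2 - (D + 1 + 1) = K - D by omega]
          field_simp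
          ring
  refine (Finset.sum_le_sum e).trans ?_
  rw [← Finset.mul_sum]
  have h2 : 0 ≤ ((K + 2).choose 0 : ℝ) * r ^ 0 * (1 - r) ^ (K + 2 - 0) := by positivity
  have h2' : 0 ≤ ((K + 2).choose (0 + 1) : ℝ) * r ^ (0 + 1) * (1 - r) ^ (K + 2 - (0 + 1)) := by
    positivity
  have h3 : ∑ D ∈ range (K + 1), ((K + 2).choose (D + 1 + 1) : ℝ) * r ^ (D + 1 + 1) *
        (1 - r) ^ (K + 2 - (D + 1 + 1)) ≤ 1 := by linarith
  calc (2 / ((K + 1) * (K + 2) * r ^ 2)) * ∑ D ∈ range (K + 1),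
        ((K + 2).choose (D + 1 + 1) : ℝ) * r ^ (D + 1 + 1) *
        (1 - r) ^ (K + 2 - (D + 1 + 1)) ≤ (2 / ((K + 1) * (K + 2) * r ^ 2)) * 1 :=
        mul_le_mul_of_nonneg_left h3 (by positivity)
    _ = _ := mul_one _

theorem kap_mean {r : ℝ} (h0 : 0 < r) (h1 : r ≤ 1) (K : ℕ) {t : ℝ} (ht : 0 < t)
    (hK : t ^ 2 = K + 1) :
    ∑ D ∈ range (K + 1), (K.choose D : ℝ) * r ^ D * (1 - r) ^ (K - D) * kap D ≤
      (1 / r ^ 2 + 1 / (2 * r)) / t ^ 3 := by
  have hr : 0 ≤ 1 - r := by linarith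
  have hA := binom_inv h0 h1 K
  have hB := binom_inv_two h0 h1 K
  calc ∑ D ∈ range (K + 1), (K.choose D : ℝ) * r ^ D * (1 - r) ^ (K - D) * kap D
      ≤ ∑ D ∈ range (K + 1), ((t / 2) * ((K.choose D : ℝ) * r ^ D * (1 - r) ^ (K - D) *
          (1 / ((D + 1) * (D + 1)))) + (1 / (2 * t)) *
          ((K.choose D : ℝ) * r ^ D * (1 - r) ^ (K - D) * (1 / (D + 1)))) := by
        apply Finset.sum_le_sum
        intro D _
        have hw : 0 ≤ (K.choose D : ℝ) * r ^ D * (1 - r) ^ (K - D) := by positivity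
        calc (K.choose D : ℝ) * r ^ D * (1 - r) ^ (K - D) * kap D
            ≤ (K.choose D : ℝ) * r ^ D * (1 - r) ^ (K - D) *
              ((t / 2) * (1 / ((D + 1) * (D + 1))) + (1 / (2 * t)) * (1 / (D + 1))) :=
              mul_le_mul_of_nonneg_left (kap_le D ht) hw
          _ = _ := by ring
    _ = (t / 2) * ∑ D ∈ range (K + 1), ((K.choose D : ℝ) * r ^ D * (1 - r) ^ (K - D) *
          (1 / ((D + 1) * (D + 1)))) + (1 / (2 * t)) *
          ∑ D ∈ range (K + 1), ((K.choose D : ℝ) * r ^ D * (1 - r) ^ (K - D) * (1 / (D + 1))) := by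
        rw [Finset.sum_add_distrib, Finset.mul_sum, Finset.mul_sum]
    _ ≤ (t / 2) * (2 / ((K + 1) * (K + 2) * r ^ 2)) + (1 / (2 * t)) * (1 / ((K + 1) * r)) :=
        add_le_add (mul_le_mul_of_nonneg_left hB (by positivity))
          (mul_le_mul_of_nonneg_left hA (by positivity))
    _ ≤ (t / 2) * (2 / (t ^ 2 * t ^ 2 * r ^ 2)) + (1 / (2 * t)) * (1 / (t ^ 2 * r)) := by
        rw [hK]
        apply add_le_add _ le_rfl
        apply mul_le_mul_of_nonneg_left _ (by positivity)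
        apply div_le_div_of_nonneg_left (by norm_num) (by positivity)
        apply mul_le_mul_of_nonneg_right _ (by positivity)
        apply mul_le_mul_of_nonneg_left _ (by positivity)
        linarith
    _ = _ := by
        field_simp

theorem pow_decay {u : ℝ} (h0 : 0 < u) (h1 : u ≤ 1) (k : ℕ) {t : ℝ} (ht : 1 ≤ t)
    (hk : t ^ 2 = k + 2) : (1 - u) ^ k ≤ (4 / u ^ 2) / t ^ 3 := by
  have hb := one_add_mul_le_pow (a := u / 2) (by linarith) k
  have h3 : 0 ≤ 1 - u / 2 := by linarith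
  have h2 : (1 - u / 2) ^ k * (1 + k * (u / 2)) ≤ 1 := by
    calc (1 - u / 2) ^ k * (1 + k * (u / 2)) ≤ (1 - u / 2) ^ k * (1 + u / 2) ^ k :=
          mul_le_mul_of_nonneg_left hb (by positivity)
      _ = (1 - u ^ 2 / 4) ^ k := by
          rw [← mul_pow]
          ring
      _ ≤ 1 := pow_le_one₀ (by nlinarith) (by nlinarith)
  have h4 : u * (t ^ 2) / 2 ≤ 1 + k * (u / 2) := by
    rw [hk]
    nlinarith
  have h5 : (1 - u / 2) ^ k * (u * t ^ 2 / 2) ≤ 1 :=
    (mul_le_mul_of_nonneg_left h4 (by positivity)).trans h2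
  have h6 : (1 - u) ^ k ≤ ((1 - u / 2) ^ k) ^ 2 := by
    rw [← pow_mul, mul_comm, pow_mul]
    apply pow_le_pow_left₀ (by linarith)
    nlinarith [sq_nonneg u]
  have ht0 : 0 < t := by linarith
  have h7 : (1 - u / 2) ^ k ≤ 2 / (u * t ^ 2) := by
    rw [le_div_iff₀ (by positivity)]
    nlinarith
  calc (1 - u) ^ k ≤ ((1 - u / 2) ^ k) ^ 2 := h6
    _ ≤ (2 / (u * t ^ 2)) ^ 2 := pow_le_pow_left₀ (by positivity) h7 2
    _ = (4 / u ^ 2) / (t ^ 4) := by
        field_simp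
        ring
    _ ≤ (4 / u ^ 2) / t ^ 3 := by
        apply div_le_div_of_nonneg_left (by positivity) (by positivity)
        exact pow_le_pow_right₀ ht (by norm_num)

end Vale.Agent.H26P321
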