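import Vale.Agent.Lib.H26P321.Expand
import Vale.Agent.Lib.H26P321.Bound

namespace Vale.Agent.H26P321

open Finset

theorem Close.zero_add {z w z' w' : Alg} (h : Close 0 z w) {δ : ℝ} (h' : Close δ z' w') :
    Close δ (z + z') (w + w') := by
  have := h.add h'
  rwa [_root_.zero_add] at this

theorem close0_io (u : List Bool) : Close 0 (io u) (io u) := by
  have := Close.single (a := 1) (b := 1) zero_le_one zero_le_one u
  simpa using this

theorem close0_smul {z : Alg} (h : Close 0 z z) {c : ℝ} (hc : 0 ≤ c) :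
    Close 0 (c • z) (c • z) := by
  have := h.smul hc
  rwa [mul_zero] at this

theorem close0_bet_left {z : Alg} {q : ℝ} (h0 : 0 ≤ q) (h1 : q ≤ 1) (h : Close 0 z z) (c : ℕ) :
    Close 0 (bet q ^ c * z) (bet q ^ c * z) := by
  have := h.bet_left h0 h1 c
  rwa [mul_zero] at this

theorem close0_bet_right {z : Alg} {q : ℝ} (h0 : 0 ≤ q) (h1 : q ≤ 1) (h : Close 0 z z) (c : ℕ) :
    Close 0 (z * bet q ^ c) (z * bet q ^ c) := by
  have := h.bet_right h0 h1 c
  rwa [mul_zero] at this

theorem close0_sum {ι : Type*} (s : Finset ι) (z : ι → Alg) (h : ∀ i ∈ s, Close 0 (z i) (z i)) :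
    Close 0 (∑ i ∈ s, z i) (∑ i ∈ s, z i) := by
  have := Close.sum s (fun _ => 0) z z h
  simpa using this

theorem coef_nonneg {q : ℝ} (h0 : 0 ≤ q) (k D c : ℕ) : 0 ≤ coef q k D c := by
  unfold coef
  positivity

/-- The coefficient of the plain words, shifted. -/
noncomputable def acoef (q : ℝ) (k D c : ℕ) : ℝ := coef q k D c * q ^ 3 * 2 ^ D

/-- The common part of the two laws. -/
noncomputable def com (q : ℝ) (k : ℕ) : Alg :=
  ∑ D ∈ range (k + 1), acoef q k D 0 • bet q ^ D +
  ∑ D ∈ range (k + 1), ∑ c ∈ range (k - D + 1),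
        coef q k D c • (bet q ^ c * G q D (((1 - q) * q ^ 2) • io [true] + q • bet q) * bet q ^ c)

theorem close_com {q : ℝ} (h0 : 0 < q) (h1 : q < 1) (k : ℕ) :
    Close 0 (com q k) (com q k) := by
  unfold com
  have hone : Close 0 (1 : Alg) 1 := by
    rw [← io_nil]
    exact close0_io []
  have hq : 0 ≤ 1 - q := by linarith
  have hM : Close 0 (((1 - q) * q ^ 2) • io [true] + q • bet q)
      (((1 - q) * q ^ 2) • io [true] + q • bet q) := by
    apply Close.zero_add
    · exact close0_smul (close0_io _) (by positivity)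
    · apply close0_smul _ h0.le
      have := close0_bet_left h0.le h1.le hone 1
      simpa using this
  apply Close.zero_add
  · apply close0_sum
    intro D _
    apply close0_smul
    · have := close0_bet_left h0.le h1.le hone D
      simpa using this
    · unfold acoef
      have := coef_nonneg h0.le k D 0
      positivity
  · apply close0_sum
    intro D _
    apply close0_sum
    intro c _
    apply close0_smul _ (coef_nonneg h0.le k D c)
    apply close0_bet_right h0.le h1.le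
    apply close0_bet_left h0.le h1.le
    unfold G
    apply close0_sum
    intro b _
    apply close0_smul _ (Nat.cast_nonneg _)
    apply close0_bet_right h0.le h1.le
    exact close0_bet_left h0.le h1.le hM b

theorem acoef_top (q : ℝ) (k D : ℕ) : acoef q k D (k - D + 1) = 0 := by
  unfold acoef coef
  rw [Nat.choose_succ_self]
  simp

theorem decomp (q : ℝ) (k : ℕ) (mid W : Alg)
    (hmid : mid = q ^ 3 • (1 : Alg) + ((((1 - q) * q ^ 2) • io [true] + q • bet q) +
      q⁻¹ • W)) :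
    (q ^ 2 • (1 : Alg) + bet q) ^ k * mid * (q ^ 2 • (1 : Alg) + bet q) ^ k =
      com q k + ∑ D ∈ range (k + 1), ∑ c ∈ range (k - D + 1),
        bet q ^ c * (acoef q k D (c + 1) • bet q ^ (D + 2) + (q⁻¹ * coef q k D c) • G q D W) *
          bet q ^ c := by
  rw [sandwich, hmid, com, add_assoc (∑ D ∈ range (k + 1), acoef q k D 0 • bet q ^ D),
    ← Finset.sum_add_distrib, ← Finset.sum_add_distrib]
  apply Finset.sum_congr rfl
  intro D _
  have e1 : ∑ c ∈ range (k - D + 1), acoef q k D c • bet q ^ (D + 2 * c) =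
      acoef q k D 0 • bet q ^ D +
        ∑ c ∈ range (k - D + 1), acoef q k D (c + 1) • bet q ^ (D + 2 * (c + 1)) := by
    have h1 := Finset.sum_range_succ' (fun c => acoef q k D c • bet q ^ (D + 2 * c)) (k - D + 1)
    rw [Finset.sum_range_succ] at h1
    simp only [acoef_top, zero_smul, add_zero, mul_zero] at h1
    rw [h1, add_comm]
  have e2 : ∀ c ∈ range (k - D + 1), coef q k D c • (bet q ^ c * G q D (q ^ 3 • (1 : Alg) +
      ((((1 - q) * q ^ 2) • io [true] + q • bet q) + q⁻¹ • W)) * bet q ^ c) =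
      acoef q k D c • bet q ^ (D + 2 * c) +
      (coef q k D c • (bet q ^ c * G q D (((1 - q) * q ^ 2) • io [true] + q • bet q) *
        bet q ^ c) + (q⁻¹ * coef q k D c) • (bet q ^ c * G q D W * bet q ^ c)) := by
    intro c _
    rw [G_add, G_add, G_smul, G_smul, G_one]
    simp only [mul_add, add_mul, smul_mul_assoc, mul_smul_comm, smul_add]
    simp only [smul_smul]
    rw [← pow_add, ← pow_add]
    congr 1
    · unfold acoef
      congr 1
      · ring
      · congr 1
        ring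
    · congr 1
      congr 1
      ring
  rw [Finset.sum_congr rfl e2, Finset.sum_add_distrib, e1, Finset.sum_add_distrib, add_assoc]
  congr 1
  rw [← Finset.sum_add_distrib, ← Finset.sum_add_distrib, ← Finset.sum_add_distrib]
  apply Finset.sum_congr rfl
  intro c _
  have e3 : bet q ^ c * (acoef q k D (c + 1) • bet q ^ (D + 2) +
      (q⁻¹ * coef q k D c) • G q D W) * bet q ^ c =
      acoef q k D (c + 1) • bet q ^ (D + 2 * (c + 1)) +
        (q⁻¹ * coef q k D c) • (bet q ^ c * G q D W * bet q ^ c) := by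
    rw [mul_add, add_mul, mul_smul_comm, smul_mul_assoc, mul_smul_comm, smul_mul_assoc,
      ← pow_add, ← pow_add, show c + (D + 2) + c = D + 2 * (c + 1) by ring]
  rw [e3]
  abel

/-- Bound for one pair of indices. -/
noncomputable def dterm (q : ℝ) (k D c : ℕ) : ℝ :=
  if c < k - D then
    ((1 - q) * (1 - q ^ 2) / (2 * q ^ 4)) * (((k + 1).choose D : ℝ) * ((k + 1 - D).choose c : ℝ) *
      (2 * q ^ 2 * (1 - q ^ 2)) ^ D * ((1 - q ^ 2) ^ 2) ^ c * (q ^ 4) ^ (k + 1 - D - c) * kap D)
  else (1 - q) * (1 - q ^ 2) * ((k.choose D : ℝ) * (2 * q ^ 2 * (1 - q ^ 2)) ^ D *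
      ((1 - q ^ 2) ^ 2) ^ (k - D))

theorem choose_ineq (k D c : ℕ) (hD : D ≤ k) (hc : c < k - D) :
    (k.choose D : ℝ) * ((k - D).choose c : ℝ) * ((c + 1) / ((k - D - c : ℕ) : ℝ)) ≤
      2 * (((k + 1).choose D : ℝ) * ((k + 1 - D).choose c : ℝ)) := by
  obtain ⟨e, he⟩ : ∃ e, k - D - c = e := ⟨_, rfl⟩
  have he1 : 1 ≤ e := by omega
  have hk : k = D + c + e := by omega
  have h1 : ((k + 1).choose D : ℝ) * ((D + c + e) + 1 - D) = k.choose D * (k + 1) := by
    have := Nat.choose_mul_succ_eq k D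
    have h2 : (k + 1 - D : ℕ) = c + e + 1 := by omega
    rw [h2] at this
    have h3 : ((k.choose D * (k + 1) : ℕ) : ℝ) = (((k + 1).choose D * (c + e + 1) : ℕ) : ℝ) := by
      rw [this]
    push_cast at h3
    rw [h3]
    ring
  have h2 : ((k + 1 - D).choose c : ℝ) * (e + 1) = ((k - D).choose c : ℝ) * (c + e + 1) := by
    have := Nat.choose_mul_succ_eq (k - D) c
    have h3 : (k - D + 1 - c : ℕ) = e + 1 := by omega
    have h4 : k + 1 - D = k - D + 1 := by omega
    have h5 : k - D = c + e := by omega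
    rw [h3] at this
    rw [h4]
    have h6 : (((k - D).choose c * (k - D + 1) : ℕ) : ℝ) =
        (((k - D + 1).choose c * (e + 1) : ℕ) : ℝ) := by
      rw [this]
    push_cast at h6
    have h7 : ((k - D : ℕ) : ℝ) = c + e := by
      rw [h5]
      push_cast
      ring
    rw [h7] at h6
    linarith
  have hkr : (k : ℝ) = D + c + e := by
    rw [hk]
    push_cast
    ring
  have he0 : (1 : ℝ) ≤ e := by exact_mod_cast he1
  have hc0 : (0 : ℝ) ≤ c := Nat.cast_nonneg c
  have hD0 : (0 : ℝ) ≤ D := Nat.cast_nonneg D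
  rw [he]
  have hA : (0 : ℝ) ≤ k.choose D := Nat.cast_nonneg _
  have hB : (0 : ℝ) ≤ (k - D).choose c := Nat.cast_nonneg _
  have e1 : ((k + 1).choose D : ℝ) = k.choose D * (k + 1) / (c + e + 1) := by
    rw [eq_div_iff (by positivity), ← h1]
    ring
  have e2 : ((k + 1 - D).choose c : ℝ) = ((k - D).choose c : ℝ) * (c + e + 1) / (e + 1) := by
    rw [eq_div_iff (by positivity), h2]
  rw [e1, e2]
  have e3 : 2 * ((k.choose D : ℝ) * (k + 1) / (c + e + 1) *
      (((k - D).choose c : ℝ) * (c + e + 1) / (e + 1))) =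
      (k.choose D : ℝ) * ((k - D).choose c : ℝ) * (2 * (k + 1) / (e + 1)) := by
    field_simp
  rw [e3]
  apply mul_le_mul_of_nonneg_left _ (mul_nonneg hA hB)
  rw [div_le_div_iff₀ (by linarith) (by linarith), hkr]
  nlinarith [mul_nonneg hc0 hD0, mul_nonneg (by linarith : (0 : ℝ) ≤ e) hD0,
    mul_nonneg (by linarith : (0 : ℝ) ≤ e) hc0]

theorem close_term {q : ℝ} (h0 : 0 < q) (h1 : q < 1) (k D c : ℕ) (hD : D ≤ k)
    (hc : c ≤ k - D) :
    Close (dterm q k D c)
      (bet q ^ c * (acoef q k D (c + 1) • bet q ^ (D + 2) + (q⁻¹ * coef q k D c) • GX q D) *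
          bet q ^ c)
      (bet q ^ c * (acoef q k D (c + 1) • bet q ^ (D + 2) + (q⁻¹ * coef q k D c) • GY q D) *
          bet q ^ c) := by
  have hp : 0 < 1 - q := by linarith
  have hs : 0 < 1 - q ^ 2 := by nlinarith
  have hd : 0 ≤ q⁻¹ * coef q k D c := mul_nonneg (inv_nonneg.mpr h0.le) (coef_nonneg h0.le _ _ _)
  by_cases hlt : c < k - D
  · obtain ⟨e, he⟩ : ∃ e, k - D - c = e + 1 := ⟨k - D - c - 1, by omega⟩
    have he2 : k - D - (c + 1) = e := by omega
    have hA : (0 : ℝ) < k.choose D := by exact_mod_cast Nat.choose_pos hD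
    have hB : (0 : ℝ) < (k - D).choose c := by exact_mod_cast Nat.choose_pos hc
    have hB' : (0 : ℝ) < (k - D).choose (c + 1) := by
      exact_mod_cast Nat.choose_pos (by omega : c + 1 ≤ k - D)
    have hrat : ((k - D).choose (c + 1) : ℝ) * (c + 1) = (k - D).choose c * (e + 1) := by
      have := Nat.choose_succ_right_eq (k - D) c
      rw [he] at this
      exact_mod_cast this
    have ha : 0 < acoef q k D (c + 1) := by
      unfold acoef coef
      positivity
    have key := ((inner_close h0 h1 D ha hd).bet_left h0.le h1.le c).bet_right h0.le h1.le c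
    refine key.mono ?_
    unfold dterm
    rw [if_pos hlt]
    have hkap := kap_nonneg D
    have hch := choose_ineq k D c hD hlt
    have e5 : k + 1 - D - c = e + 2 := by omega
    rw [e5]
    have e4 : (1 - q ^ 2) ^ c * ((1 - q ^ 2) ^ c * ((q⁻¹ * coef q k D c) ^ 2 * cat D * om q 1 *
        (1 - q ^ 2) ^ (D + 1) / (4 * acoef q k D (c + 1)))) =
        ((1 - q) * (1 - q ^ 2) / 4) * (((k.choose D : ℝ) * ((k - D).choose c : ℝ) *
          ((c + 1) / ((k - D - c : ℕ) : ℝ))) * ((2 * q ^ 2 * (1 - q ^ 2)) ^ D *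
          ((1 - q ^ 2) ^ 2) ^ c * (q ^ 4) ^ (e + 1) * kap D)) := by
      unfold acoef coef kap
      rw [om_one, he, he2]
      have h4 : (4 : ℝ) ^ D = 2 ^ D * 2 ^ D := by rw [← mul_pow]; norm_num
      have hB2 : ((k - D).choose (c + 1) : ℝ) = (k - D).choose c * (e + 1) / (c + 1) := by
        rw [eq_div_iff (by positivity), hrat]
      rw [hB2, h4]
      push_cast
      generalize 1 - q ^ 2 = s
      field_simp
      ring
    rw [e4]
    have hw : 0 ≤ ((2 * q ^ 2 * (1 - q ^ 2)) ^ D *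
          ((1 - q ^ 2) ^ 2) ^ c * (q ^ 4) ^ (e + 1) * kap D) := by positivity
    calc ((1 - q) * (1 - q ^ 2) / 4) * (((k.choose D : ℝ) * ((k - D).choose c : ℝ) *
          ((c + 1) / ((k - D - c : ℕ) : ℝ))) * ((2 * q ^ 2 * (1 - q ^ 2)) ^ D *
          ((1 - q ^ 2) ^ 2) ^ c * (q ^ 4) ^ (e + 1) * kap D))
        ≤ ((1 - q) * (1 - q ^ 2) / 4) * ((2 * (((k + 1).choose D : ℝ) *
          ((k + 1 - D).choose c : ℝ))) * ((2 * q ^ 2 * (1 - q ^ 2)) ^ D *
          ((1 - q ^ 2) ^ 2) ^ c * (q ^ 4) ^ (e + 1) * kap D)) := by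
          apply mul_le_mul_of_nonneg_left _ (by positivity)
          exact mul_le_mul_of_nonneg_right hch hw
      _ = _ := by
          have : (q ^ 4) ^ (e + 2) = q ^ 4 * (q ^ 4) ^ (e + 1) := by ring
          rw [this]
          field_simp
          ring
  · have hce : c = k - D := by omega
    subst hce
    have ha : acoef q k D (k - D + 1) = 0 := acoef_top q k D
    rw [ha]
    have key := ((inner_close_zero h0 h1 D hd).bet_left h0.le h1.le (k - D)).bet_right
      h0.le h1.le (k - D)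
    refine key.mono (le_of_eq ?_)
    unfold dterm
    rw [if_neg (lt_irrefl _)]
    unfold coef
    rw [om_one, Nat.sub_self, Nat.choose_self]
    push_cast
    generalize 1 - q ^ 2 = s
    field_simp
    ring

theorem dterm_sum {q : ℝ} (h0 : 0 < q) (h1 : q < 1) (k : ℕ) {t : ℝ} (ht : 1 ≤ t)
    (hk : t ^ 2 = k + 2) :
    ∑ D ∈ range (k + 1), ∑ c ∈ range (k - D + 1), dterm q k D c ≤ (17 / 4) / q ^ 8 / t ^ 3 := by
  have hp : 0 < 1 - q := by linarith
  have hs : 0 < 1 - q ^ 2 := by nlinarith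
  have hs1 : 1 - q ^ 2 ≤ 1 := by nlinarith
  set s : ℝ := 1 - q ^ 2 with hsdef
  set r : ℝ := 2 * q ^ 2 * s with hr
  have hr0 : 0 < r := by positivity
  have hr1 : r ≤ 1 := by
    rw [hr, hsdef]
    nlinarith [sq_nonneg (q ^ 2 - 1 / 2)]
  have hcr : s ^ 2 + q ^ 4 = 1 - r := by
    rw [hr, hsdef]
    ring
  have hsum : ∀ D ∈ range (k + 1), ∑ c ∈ range (k - D + 1), dterm q k D c ≤
      ((1 - q) * s / (2 * q ^ 4)) * (((k + 1).choose D : ℝ) * r ^ D * (1 - r) ^ (k + 1 - D) *
        kap D) + (1 - q) * s * ((k.choose D : ℝ) * r ^ D * (s ^ 2) ^ (k - D)) := by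
    intro D hD
    have hD' : D ≤ k := by
      have := Finset.mem_range.mp hD
      omega
    rw [Finset.sum_range_succ]
    have e1 : dterm q k D (k - D) = (1 - q) * s * ((k.choose D : ℝ) * r ^ D *
        (s ^ 2) ^ (k - D)) := by
      unfold dterm
      rw [if_neg (lt_irrefl _)]
    rw [e1]
    apply add_le_add _ le_rfl
    have e2 : ∀ c ∈ range (k - D), dterm q k D c = ((1 - q) * s / (2 * q ^ 4)) *
        (((k + 1).choose D : ℝ) * r ^ D * kap D) * ((s ^ 2) ^ c * (q ^ 4) ^ (k + 1 - D - c) *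
          ((k + 1 - D).choose c : ℝ)) := by
      intro c hc
      unfold dterm
      rw [if_pos (Finset.mem_range.mp hc)]
      ring
    rw [Finset.sum_congr rfl e2, ← Finset.mul_sum]
    have e3 : ∑ c ∈ range (k - D), ((s ^ 2) ^ c * (q ^ 4) ^ (k + 1 - D - c) *
          ((k + 1 - D).choose c : ℝ)) ≤ (1 - r) ^ (k + 1 - D) := by
      rw [← hcr, add_pow]
      apply Finset.sum_le_sum_of_subset_of_nonneg
      · intro c hc
        rw [Finset.mem_range] at hc ⊢
        omega
      · intro i _ _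
        positivity
    have hk0 := kap_nonneg D
    calc ((1 - q) * s / (2 * q ^ 4)) * (((k + 1).choose D : ℝ) * r ^ D * kap D) *
          ∑ c ∈ range (k - D), ((s ^ 2) ^ c * (q ^ 4) ^ (k + 1 - D - c) *
          ((k + 1 - D).choose c : ℝ))
        ≤ ((1 - q) * s / (2 * q ^ 4)) * (((k + 1).choose D : ℝ) * r ^ D * kap D) *
          (1 - r) ^ (k + 1 - D) := mul_le_mul_of_nonneg_left e3 (by positivity)
      _ = _ := by ring
  refine (Finset.sum_le_sum hsum).trans ?_
  rw [Finset.sum_add_distrib, ← Finset.mul_sum, ← Finset.mul_sum]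
  have h2 : ∑ D ∈ range (k + 1), ((k.choose D : ℝ) * r ^ D * (s ^ 2) ^ (k - D)) =
      (1 - q ^ 4) ^ k := by
    have : 1 - q ^ 4 = r + s ^ 2 := by
      rw [hr, hsdef]
      ring
    rw [this, add_pow]
    apply Finset.sum_congr rfl
    intro D _
    ring
  have ht0 : 0 < t := by linarith
  have hr1' : 0 ≤ 1 - r := by linarith
  have h3 : ∑ D ∈ range (k + 1), (((k + 1).choose D : ℝ) * r ^ D * (1 - r) ^ (k + 1 - D) *
        kap D) ≤ (1 / r ^ 2 + 1 / (2 * r)) / t ^ 3 := by
    have hkm := kap_mean hr0 hr1 (k + 1) ht0 (by push_cast; linarith)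
    refine le_trans ?_ hkm
    apply Finset.sum_le_sum_of_subset_of_nonneg
    · intro c hc
      rw [Finset.mem_range] at hc ⊢
      omega
    · intro i _ _
      have := kap_nonneg i
      positivity
  have hq4 : q ^ 4 ≤ 1 := pow_le_one₀ h0.le h1.le
  have h4 : (1 - q ^ 4) ^ k ≤ (4 / (q ^ 4) ^ 2) / t ^ 3 :=
    pow_decay (by positivity) hq4 k ht hk
  rw [h2]
  have h5 : ((1 - q) * s / (2 * q ^ 4)) * ((1 / r ^ 2 + 1 / (2 * r)) / t ^ 3) ≤
      (1 / 4) / q ^ 8 / t ^ 3 := by
    rw [← mul_div_assoc]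
    apply div_le_div_of_nonneg_right _ (by positivity)
    have e6 : ((1 - q) * s / (2 * q ^ 4)) * (1 / r ^ 2 + 1 / (2 * r)) =
        ((1 - q) / s + (1 - q) * q ^ 2) / (8 * q ^ 8) := by
      rw [hr]
      field_simp
      ring
    rw [e6]
    have e7 : (1 - q) / s ≤ 1 := by
      rw [div_le_one hs, hsdef]
      nlinarith
    have e8 : (1 - q) * q ^ 2 ≤ 1 := by nlinarith [sq_nonneg q]
    rw [div_le_div_iff₀ (by positivity) (by positivity)]
    have e9 : 0 < q ^ 8 := by positivity
    nlinarith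
  have h6 : (1 - q) * s * ((4 / (q ^ 4) ^ 2) / t ^ 3) ≤ 4 / q ^ 8 / t ^ 3 := by
    have e10 : (1 - q) * s ≤ 1 := by nlinarith
    calc (1 - q) * s * ((4 / (q ^ 4) ^ 2) / t ^ 3) ≤ 1 * ((4 / (q ^ 4) ^ 2) / t ^ 3) :=
          mul_le_mul_of_nonneg_right e10 (by positivity)
      _ = _ := by
          rw [one_mul, ← pow_mul]
  calc ((1 - q) * s / (2 * q ^ 4)) * ∑ D ∈ range (k + 1), (((k + 1).choose D : ℝ) * r ^ D *
        (1 - r) ^ (k + 1 - D) * kap D) + (1 - q) * s * (1 - q ^ 4) ^ k
      ≤ ((1 - q) * s / (2 * q ^ 4)) * ((1 / r ^ 2 + 1 / (2 * r)) / t ^ 3) +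
        (1 - q) * s * ((4 / (q ^ 4) ^ 2) / t ^ 3) :=
        add_le_add (mul_le_mul_of_nonneg_left h3 (by positivity))
          (mul_le_mul_of_nonneg_left h4 (by positivity))
    _ ≤ (1 / 4) / q ^ 8 / t ^ 3 + 4 / q ^ 8 / t ^ 3 := add_le_add h5 h6
    _ = _ := by ring

theorem close_main {q : ℝ} (h0 : 0 < q) (h1 : q < 1) (k : ℕ) {t : ℝ} (ht : 1 ≤ t)
    (hk : t ^ 2 = k + 2) :
    Close ((17 / 4) / q ^ 8 / t ^ 3)
      ((q ^ 2 • (1 : Alg) + bet q) ^ k * law q [true, false, true] *
        (q ^ 2 • (1 : Alg) + bet q) ^ k)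
      ((q ^ 2 • (1 : Alg) + bet q) ^ k * law q [false, true, true] *
        (q ^ 2 • (1 : Alg) + bet q) ^ k) := by
  rw [decomp q k _ _ (mid_X q h0.ne'), decomp q k _ _ (mid_Y q h0.ne')]
  apply (close_com h0 h1 k).zero_add
  refine (Close.sum (range (k + 1)) (fun D => ∑ c ∈ range (k - D + 1), dterm q k D c) _ _
    (fun D hD => ?_)).mono (dterm_sum h0 h1 k ht hk)
  apply Close.sum
  intro c hc
  have hD' : D ≤ k := by
    have := Finset.mem_range.mp hD
    omega
  have hc' : c ≤ k - D := by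
    have := Finset.mem_range.mp hc
    omega
  exact close_term h0 h1 k D c hD' hc'

end Vale.Agent.H26P321
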