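import Vale.Agent.Lib.H26P321.Alg

namespace Vale.Agent.H26P321

open Finset

/-- The two elements have nonnegative representations on a common finite index set whose
Hellinger defect is at most `δ`. -/
def Close (δ : ℝ) (z w : Alg) : Prop :=
  ∃ (R : Type) (_ : Fintype R) (g : R → List Bool) (μ ν : R → ℝ),
    (∀ r, 0 ≤ μ r) ∧ (∀ r, 0 ≤ ν r) ∧ z = ∑ r, μ r • io (g r) ∧ w = ∑ r, ν r • io (g r) ∧
    ∑ r, ((μ r + ν r) / 2 - √(μ r * ν r)) ≤ δ

theorem Close.mono {δ δ' : ℝ} {z w : Alg} (h : Close δ z w) (hd : δ ≤ δ') :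
    Close δ' z w := by
  obtain ⟨R, iR, g, μ, ν, h1, h2, h3, h4, h5⟩ := h
  exact ⟨R, iR, g, μ, ν, h1, h2, h3, h4, h5.trans hd⟩

theorem Close.zero : Close 0 0 0 := by
  refine ⟨Empty, inferInstance, Empty.elim, Empty.elim, Empty.elim, ?_, ?_, ?_, ?_, ?_⟩
  · intro r; exact r.elim
  · intro r; exact r.elim
  · simp
  · simp
  · simp

theorem Close.add {δ δ' : ℝ} {z w z' w' : Alg} (h : Close δ z w) (h' : Close δ' z' w') :
    Close (δ + δ') (z + z') (w + w') := by
  obtain ⟨R, iR, g, μ, ν, h1, h2, h3, h4, h5⟩ := h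
  obtain ⟨R', iR', g', μ', ν', h1', h2', h3', h4', h5'⟩ := h'
  refine ⟨R ⊕ R', inferInstance, Sum.elim g g', Sum.elim μ μ', Sum.elim ν ν', ?_, ?_, ?_, ?_, ?_⟩
  · rintro (r | r)
    · exact h1 r
    · exact h1' r
  · rintro (r | r)
    · exact h2 r
    · exact h2' r
  · rw [Fintype.sum_sum_type]
    simp only [Sum.elim_inl, Sum.elim_inr]
    rw [h3, h3']
  · rw [Fintype.sum_sum_type]
    simp only [Sum.elim_inl, Sum.elim_inr]
    rw [h4, h4']
  · rw [Fintype.sum_sum_type]
    simp only [Sum.elim_inl, Sum.elim_inr]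
    exact add_le_add h5 h5'

theorem Close.sum {ι : Type*} (s : Finset ι) (δ : ι → ℝ) (z w : ι → Alg)
    (h : ∀ i ∈ s, Close (δ i) (z i) (w i)) :
    Close (∑ i ∈ s, δ i) (∑ i ∈ s, z i) (∑ i ∈ s, w i) := by
  classical
  induction s using Finset.induction_on with
  | empty => simpa using Close.zero
  | insert a s ha ih =>
    rw [Finset.sum_insert ha, Finset.sum_insert ha, Finset.sum_insert ha]
    exact (h a (Finset.mem_insert_self a s)).add
      (ih (fun i hi => h i (Finset.mem_insert_of_mem hi)))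

theorem sqrt_mul_mul {c a b : ℝ} (hc : 0 ≤ c) : √((c * a) * (c * b)) = c * √(a * b) := by
  rw [show (c * a) * (c * b) = c ^ 2 * (a * b) by ring, Real.sqrt_mul (sq_nonneg c),
    Real.sqrt_sq hc]

theorem Close.smul {δ : ℝ} {z w : Alg} (h : Close δ z w) {c : ℝ} (hc : 0 ≤ c) :
    Close (c * δ) (c • z) (c • w) := by
  obtain ⟨R, iR, g, μ, ν, h1, h2, h3, h4, h5⟩ := h
  refine ⟨R, iR, g, fun r => c * μ r, fun r => c * ν r, ?_, ?_, ?_, ?_, ?_⟩
  · intro r; exact mul_nonneg hc (h1 r)
  · intro r; exact mul_nonneg hc (h2 r)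
  · rw [h3, Finset.smul_sum]
    simp [mul_smul]
  · rw [h4, Finset.smul_sum]
    simp [mul_smul]
  · calc ∑ r, ((c * μ r + c * ν r) / 2 - √(c * μ r * (c * ν r)))
        = c * ∑ r, ((μ r + ν r) / 2 - √(μ r * ν r)) := by
          rw [Finset.mul_sum]
          apply Finset.sum_congr rfl
          intro r _
          rw [sqrt_mul_mul hc]
          ring
      _ ≤ c * δ := mul_le_mul_of_nonneg_left h5 hc

theorem Close.single {a b : ℝ} (ha : 0 ≤ a) (hb : 0 ≤ b) (u : List Bool) :
    Close ((a + b) / 2 - √(a * b)) (a • io u) (b • io u) := by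
  refine ⟨Unit, inferInstance, fun _ => u, fun _ => a, fun _ => b, fun _ => ha, fun _ => hb,
    ?_, ?_, ?_⟩
  · simp
  · simp
  · simp

theorem Close.mul_right {δ : ℝ} {z w : Alg} (h : Close δ z w) {I : Type} [Fintype I]
    (k : I → List Bool) (c : I → ℝ) (hc : ∀ i, 0 ≤ c i) :
    Close ((∑ i, c i) * δ) (z * ∑ i, c i • io (k i)) (w * ∑ i, c i • io (k i)) := by
  obtain ⟨R, iR, g, μ, ν, h1, h2, h3, h4, h5⟩ := h
  refine ⟨R × I, inferInstance, fun r => g r.1 ++ k r.2, fun r => c r.2 * μ r.1,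
    fun r => c r.2 * ν r.1, ?_, ?_, ?_, ?_, ?_⟩
  · intro r; exact mul_nonneg (hc _) (h1 _)
  · intro r; exact mul_nonneg (hc _) (h2 _)
  · rw [h3, Finset.sum_mul_sum, Fintype.sum_prod_type]
    simp only [io_append, smul_mul_assoc, mul_smul_comm, mul_smul]
  · rw [h4, Finset.sum_mul_sum, Fintype.sum_prod_type]
    simp only [io_append, smul_mul_assoc, mul_smul_comm, mul_smul]
  · rw [Fintype.sum_prod_type]
    calc ∑ r, ∑ i, ((c i * μ r + c i * ν r) / 2 - √(c i * μ r * (c i * ν r)))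
        = (∑ i, c i) * ∑ r, ((μ r + ν r) / 2 - √(μ r * ν r)) := by
          rw [mul_comm, Finset.sum_mul_sum]
          apply Finset.sum_congr rfl
          intro r _
          apply Finset.sum_congr rfl
          intro i _
          rw [sqrt_mul_mul (hc i)]
          ring
      _ ≤ (∑ i, c i) * δ := mul_le_mul_of_nonneg_left h5 (Finset.sum_nonneg (fun i _ => hc i))

theorem Close.mul_left {δ : ℝ} {z w : Alg} (h : Close δ z w) {I : Type} [Fintype I]
    (k : I → List Bool) (c : I → ℝ) (hc : ∀ i, 0 ≤ c i) :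
    Close ((∑ i, c i) * δ) ((∑ i, c i • io (k i)) * z) ((∑ i, c i • io (k i)) * w) := by
  obtain ⟨R, iR, g, μ, ν, h1, h2, h3, h4, h5⟩ := h
  refine ⟨I × R, inferInstance, fun r => k r.1 ++ g r.2, fun r => c r.1 * μ r.2,
    fun r => c r.1 * ν r.2, ?_, ?_, ?_, ?_, ?_⟩
  · intro r; exact mul_nonneg (hc _) (h1 _)
  · intro r; exact mul_nonneg (hc _) (h2 _)
  · rw [h3, Finset.sum_mul_sum, Fintype.sum_prod_type]
    simp only [io_append, smul_mul_assoc, mul_smul_comm, mul_smul]
    apply Finset.sum_congr rfl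
    intro r _
    apply Finset.sum_congr rfl
    intro i _
    rw [smul_comm]
  · rw [h4, Finset.sum_mul_sum, Fintype.sum_prod_type]
    simp only [io_append, smul_mul_assoc, mul_smul_comm, mul_smul]
    apply Finset.sum_congr rfl
    intro r _
    apply Finset.sum_congr rfl
    intro i _
    rw [smul_comm]
  · rw [Fintype.sum_prod_type]
    calc ∑ i, ∑ r, ((c i * μ r + c i * ν r) / 2 - √(c i * μ r * (c i * ν r)))
        = (∑ i, c i) * ∑ r, ((μ r + ν r) / 2 - √(μ r * ν r)) := by
          rw [Finset.sum_mul_sum]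
          apply Finset.sum_congr rfl
          intro r _
          apply Finset.sum_congr rfl
          intro i _
          rw [sqrt_mul_mul (hc r)]
          ring
      _ ≤ (∑ i, c i) * δ := mul_le_mul_of_nonneg_left h5 (Finset.sum_nonneg (fun i _ => hc i))

theorem law_one (q : ℝ) (l : List Bool) : law q l (fun _ => 1) = fun _ => 1 := by
  induction l with
  | nil => simp [law_nil]
  | cons b l ih =>
    rw [law_cons, Module.End.mul_apply, ih]
    funext w
    simp [step, io_apply]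

theorem sum_io_apply {R : Type} [Fintype R] (g : R → List Bool) (μ : R → ℝ)
    (F : List Bool → ℝ) : (∑ r, μ r • io (g r)) F [] = ∑ r, μ r * F (g r) := by
  rw [LinearMap.sum_apply, Finset.sum_apply]
  simp [io_apply]

theorem transfer_key {B : Type*} (m : ℕ) (G : (Fin (m + 1) → List Bool) → ℝ)
    (u : B → ℝ) (e : B → List Bool) (b : B) (K : Fin m → B) :
    (∏ j, u ((Fin.cons b K : Fin (m + 1) → B) j)) *
        G (fun j => e ((Fin.cons b K : Fin (m + 1) → B) j)) =
      u b * ((∏ j, u (K j)) * G (Fin.cons (e b) (fun j => e (K j)))) := by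
  rw [Fin.prod_univ_succ]
  simp only [Fin.cons_zero, Fin.cons_succ]
  rw [mul_assoc]
  congr 3
  funext j
  refine Fin.cases ?_ (fun i => ?_) j
  · simp
  · simp

theorem transfer {A R : Type*} [Fintype A] [Fintype R] (w : A → ℝ) (f : A → List Bool)
    (μ : R → ℝ) (g : R → List Bool)
    (h : ∀ F : List Bool → ℝ, ∑ a, w a * F (f a) = ∑ r, μ r * F (g r)) (m : ℕ) :
    ∀ G : (Fin m → List Bool) → ℝ,
      ∑ K : Fin m → A, (∏ j, w (K j)) * G (fun j => f (K j)) =
        ∑ s : Fin m → R, (∏ j, μ (s j)) * G (fun j => g (s j)) := by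
  induction m with
  | zero =>
    intro G
    simp only [univ_eq_empty, prod_empty, one_mul]
    rw [Fintype.sum_eq_single (fun j : Fin 0 => j.elim0) (fun b hb => absurd (Subsingleton.elim _ _) hb),
      Fintype.sum_eq_single (fun j : Fin 0 => j.elim0) (fun b hb => absurd (Subsingleton.elim _ _) hb)]
    congr 1
    funext j
    exact j.elim0
  | succ m ih =>
    intro G
    rw [sum_cons, sum_cons]
    have e1 : ∀ a : A, ∑ K : Fin m → A, (∏ j, w ((Fin.cons a K : Fin (m + 1) → A) j)) *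
          G (fun j => f ((Fin.cons a K : Fin (m + 1) → A) j)) =
        w a * ∑ s : Fin m → R, (∏ j, μ (s j)) * G (Fin.cons (f a) (fun j => g (s j))) := by
      intro a
      simp_rw [transfer_key m G w f a]
      rw [← Finset.mul_sum]
      congr 1
      exact ih (fun t => G (Fin.cons (f a) t))
    have e2 : ∀ a : R, ∑ K : Fin m → R, (∏ j, μ ((Fin.cons a K : Fin (m + 1) → R) j)) *
          G (fun j => g ((Fin.cons a K : Fin (m + 1) → R) j)) =
        μ a * ∑ s : Fin m → R, (∏ j, μ (s j)) * G (Fin.cons (g a) (fun j => g (s j))) := by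
      intro a
      simp_rw [transfer_key m G μ g a]
      rw [← Finset.mul_sum]
    simp_rw [e1, e2]
    exact h (fun u => ∑ s : Fin m → R, (∏ j, μ (s j)) * G (Fin.cons u (fun j => g (s j))))

end Vale.Agent.H26P321
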