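import Vale.Agent.Lib.H26P321.Sea

namespace Vale.Agent.H26P321

open Finset

/-- Central binomial coefficient divided by `D + 1`. -/
noncomputable def cat (D : ℕ) : ℝ := (Nat.centralBinom D : ℝ) / (D + 1)

theorem cat_nonneg (D : ℕ) : 0 ≤ cat D := by
  unfold cat
  positivity

/-- Differences of binomial coefficients. -/
noncomputable def gd (D : ℕ) : ℕ → ℝ
  | 0 => 1
  | i + 1 => (D.choose (i + 1) : ℝ) - D.choose i

theorem gd_zero (D : ℕ) : gd D 0 = 1 := rfl
theorem gd_succ (D i : ℕ) : gd D (i + 1) = (D.choose (i + 1) : ℝ) - D.choose i := rfl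

/-- First statistic. -/
noncomputable def Xs (D : ℕ) (v : List (Fin 3)) : ℝ :=
  ∑ b ∈ range (D + 1), (D.choose b : ℝ) * ind v b

/-- Second statistic. -/
noncomputable def Ys (D : ℕ) (v : List (Fin 3)) : ℝ :=
  ∑ b ∈ range (D + 1), (D.choose b : ℝ) * ind v (b + 1)

theorem Xs_nonneg (D : ℕ) (v : List (Fin 3)) : 0 ≤ Xs D v :=
  Finset.sum_nonneg (fun _ _ => mul_nonneg (Nat.cast_nonneg _) (ind_nonneg _ _))

theorem Ys_nonneg (D : ℕ) (v : List (Fin 3)) : 0 ≤ Ys D v :=
  Finset.sum_nonneg (fun _ _ => mul_nonneg (Nat.cast_nonneg _) (ind_nonneg _ _))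

theorem Xs_eq_lin (D : ℕ) (v : List (Fin 3)) :
    Xs D v = lin (D + 2) (fun i => (D.choose i : ℝ)) v := by
  unfold Xs lin
  rw [Finset.sum_range_succ _ (D + 1)]
  simp [Nat.choose_succ_self]

theorem Xs_sub_Ys (D : ℕ) (v : List (Fin 3)) :
    Xs D v - Ys D v = lin (D + 2) (gd D) v := by
  rw [Xs_eq_lin]
  unfold Ys lin
  rw [Finset.sum_range_succ', Finset.sum_range_succ' (fun i => gd D i * ind v i)]
  simp only [gd_zero, gd_succ, Nat.choose_zero_right, Nat.cast_one, sub_mul,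
    Finset.sum_sub_distrib]
  ring

theorem gd_sum (D : ℕ) : ∑ i ∈ range (D + 2), gd D i = 0 := by
  rw [Finset.sum_range_succ']
  simp only [gd_zero, gd_succ]
  rw [Finset.sum_range_sub (fun i => (D.choose i : ℝ))]
  simp [Nat.choose_succ_self]

theorem vand (D : ℕ) : ∑ i ∈ range (D + 1), (D.choose (i + 1) : ℝ) * D.choose i =
    (2 * D).choose (D + 1) := by
  have h := Nat.add_choose_eq D D (D + 1)
  rw [Finset.Nat.sum_antidiagonal_eq_sum_range_succ_mk, ← two_mul] at h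
  rw [h, Nat.succ_eq_add_one,
    Finset.sum_range_succ' (fun k => D.choose k * D.choose (D + 1 - k)) (D + 1)]
  simp only [Nat.sub_zero, Nat.choose_succ_self, mul_zero, add_zero]
  push_cast
  apply Finset.sum_congr rfl
  intro i hi
  have hi' : i ≤ D := by
    have := Finset.mem_range.mp hi
    omega
  rw [Nat.choose_symm hi']

theorem gd_sq_sum (D : ℕ) : ∑ i ∈ range (D + 2), gd D i ^ 2 = 2 * cat D := by
  rw [Finset.sum_range_succ']
  simp only [gd_zero, gd_succ]
  have h1 : ∑ i ∈ range (D + 1), ((D.choose (i + 1) : ℝ) - D.choose i) ^ 2 =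
      ∑ i ∈ range (D + 1), (D.choose (i + 1) : ℝ) ^ 2 +
      ∑ i ∈ range (D + 1), (D.choose i : ℝ) ^ 2 -
      2 * ∑ i ∈ range (D + 1), (D.choose (i + 1) : ℝ) * D.choose i := by
    rw [Finset.mul_sum, ← Finset.sum_add_distrib, ← Finset.sum_sub_distrib]
    apply Finset.sum_congr rfl
    intro i _
    ring
  have h2 : ∑ i ∈ range (D + 1), (D.choose i : ℝ) ^ 2 = Nat.centralBinom D := by
    rw [Nat.centralBinom_eq_two_mul_choose, ← Nat.sum_range_choose_sq]
    push_cast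
    rfl
  have h3 : ∑ i ∈ range (D + 1), (D.choose (i + 1) : ℝ) ^ 2 + 1 = Nat.centralBinom D := by
    have := Finset.sum_range_succ' (fun i => (D.choose i : ℝ) ^ 2) (D + 1)
    rw [Finset.sum_range_succ, h2] at this
    simp only [Nat.choose_succ_self, Nat.choose_zero_right] at this
    push_cast at this
    linarith
  have h4 : ((2 * D).choose (D + 1) : ℝ) * (D + 1) = Nat.centralBinom D * D := by
    have := Nat.choose_succ_right_eq (2 * D) D
    rw [show 2 * D - D = D by omega, ← Nat.centralBinom_eq_two_mul_choose] at this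
    exact_mod_cast this
  rw [h1, h2, vand]
  have h5 : ((2 * D).choose (D + 1) : ℝ) = Nat.centralBinom D - cat D := by
    unfold cat
    have hD : ((D : ℝ) + 1) ≠ 0 := by positivity
    field_simp
    linarith
  rw [h5]
  linarith

theorem om_one (q : ℝ) : om q 1 = (1 - q) * q := by
  simp [om]

/-- Law with the defect placed before. -/
noncomputable def GX (q : ℝ) (D : ℕ) : Alg :=
  ∑ b ∈ range (D + 1), (D.choose b : ℝ) • (bet q ^ b * (xi q * bet q) * bet q ^ (D - b))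

/-- Law with the defect placed after. -/
noncomputable def GY (q : ℝ) (D : ℕ) : Alg :=
  ∑ b ∈ range (D + 1), (D.choose b : ℝ) • (bet q ^ b * (bet q * xi q) * bet q ^ (D - b))

theorem GX_eq (q : ℝ) (D : ℕ) :
    GX q D = SW q (D + 2) (fun v => Xs D v • io (flat v)) := by
  have : (fun v : List (Fin 3) => Xs D v • io (flat v)) = fun v =>
      ∑ b ∈ range (D + 1), (D.choose b : ℝ) • (ind v b • io (flat v)) := by
    funext v
    unfold Xs
    rw [Finset.sum_smul]
    simp [mul_smul]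
  rw [this, SW_sum, GX]
  apply Finset.sum_congr rfl
  intro b hb
  have hb' : b ≤ D := by
    have := Finset.mem_range.mp hb
    omega
  rw [SW_smul]
  congr 1
  have e : D + 2 = b + (D - b + 1) + 1 := by omega
  rw [e, ← insert_pow, pow_succ' (bet q) (D - b)]
  simp only [mul_assoc]

theorem GY_eq (q : ℝ) (D : ℕ) :
    GY q D = SW q (D + 2) (fun v => Ys D v • io (flat v)) := by
  have : (fun v : List (Fin 3) => Ys D v • io (flat v)) = fun v =>
      ∑ b ∈ range (D + 1), (D.choose b : ℝ) • (ind v (b + 1) • io (flat v)) := by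
    funext v
    unfold Ys
    rw [Finset.sum_smul]
    simp [mul_smul]
  rw [this, SW_sum, GY]
  apply Finset.sum_congr rfl
  intro b hb
  have hb' : b ≤ D := by
    have := Finset.mem_range.mp hb
    omega
  rw [SW_smul]
  congr 1
  have e : D + 2 = (b + 1) + (D - b) + 1 := by omega
  rw [e, ← insert_pow, pow_succ (bet q) b]
  simp only [mul_assoc]

theorem sqrt_gap {a μ ν : ℝ} (ha : 0 < a) (hμ : a ≤ μ) (hν : a ≤ ν) :
    (μ + ν) / 2 - √(μ * ν) ≤ (μ - ν) ^ 2 / (8 * a) := by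
  have hμ0 : 0 ≤ μ := ha.le.trans hμ
  have hν0 : 0 ≤ ν := ha.le.trans hν
  rw [Real.sqrt_mul hμ0]
  set x := √μ with hx
  set y := √ν with hy
  have hx0 : 0 ≤ x := Real.sqrt_nonneg _
  have hy0 : 0 ≤ y := Real.sqrt_nonneg _
  have hx2 : x ^ 2 = μ := Real.sq_sqrt hμ0
  have hy2 : y ^ 2 = ν := Real.sq_sqrt hν0
  have hxy : a ≤ x * y := by
    have : √a * √a ≤ x * y :=
      mul_le_mul (Real.sqrt_le_sqrt hμ) (Real.sqrt_le_sqrt hν) (Real.sqrt_nonneg _) hx0
    rwa [Real.mul_self_sqrt ha.le] at this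
  rw [← hx2, ← hy2, le_div_iff₀ (by positivity)]
  have h2 : 0 ≤ (x - y) ^ 2 := sq_nonneg _
  have h1 : 4 * a ≤ (x + y) ^ 2 := by nlinarith
  nlinarith [mul_le_mul_of_nonneg_left h1 h2]

theorem SW_gd (q : ℝ) (hs : (1 - q ^ 2) ≠ 0) (D : ℕ) :
    SW q (D + 2) (lin (D + 2) (gd D)) = 0 := by
  have h := first_moment q (D + 2) (gd D)
  rw [gd_sum, mul_zero, mul_zero] at h
  exact (mul_eq_zero.mp h).resolve_left hs

theorem SW_gd_sq {q : ℝ} (h0 : 0 < q) (h1 : q < 1) (D : ℕ) :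
    SW q (D + 2) (fun v => lin (D + 2) (gd D) v ^ 2) ≤
      (1 - q ^ 2) ^ (D + 1) * om q 1 * (2 * cat D) := by
  have hs : 0 < 1 - q ^ 2 := by nlinarith
  have h := second_moment q (D + 2) (gd D)
  rw [gd_sum, gd_sq_sum] at h
  have hom : 0 ≤ om q 1 := om_nonneg h0.le h1.le 1
  have e : SW q (D + 2) (fun v => lin (D + 2) (gd D) v ^ 2) =
      (1 - q ^ 2) ^ D * (om q 1 * (1 - q ^ 2 - om q 1) * (2 * cat D)) := by
    have h2 : (1 - q ^ 2) ^ 2 * SW q (D + 2) (fun v => lin (D + 2) (gd D) v ^ 2) =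
        (1 - q ^ 2) ^ 2 * ((1 - q ^ 2) ^ D * (om q 1 * (1 - q ^ 2 - om q 1) * (2 * cat D))) := by
      rw [h]
      ring
    exact mul_left_cancel₀ (pow_ne_zero 2 hs.ne') h2
  rw [e]
  have hc := cat_nonneg D
  have hsp : 0 ≤ (1 - q ^ 2) ^ D := pow_nonneg hs.le D
  have : om q 1 * (1 - q ^ 2 - om q 1) * (2 * cat D) ≤ om q 1 * (1 - q ^ 2) * (2 * cat D) := by
    apply mul_le_mul_of_nonneg_right _ (by linarith)
    apply mul_le_mul_of_nonneg_left _ hom
    linarith
  calc (1 - q ^ 2) ^ D * (om q 1 * (1 - q ^ 2 - om q 1) * (2 * cat D))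
      ≤ (1 - q ^ 2) ^ D * (om q 1 * (1 - q ^ 2) * (2 * cat D)) :=
        mul_le_mul_of_nonneg_left this hsp
    _ = _ := by ring

theorem SW_Xs {q : ℝ} (hs : (1 - q ^ 2) ≠ 0) (D : ℕ) :
    SW q (D + 2) (Xs D) = (1 - q ^ 2) ^ (D + 1) * om q 1 * 2 ^ D := by
  have e : Xs D = lin (D + 2) (fun i => (D.choose i : ℝ)) := by
    funext v
    exact Xs_eq_lin D v
  rw [e]
  have h := first_moment q (D + 2) (fun i => (D.choose i : ℝ))
  have h2 : ∑ i ∈ range (D + 2), (D.choose i : ℝ) = 2 ^ D := by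
    rw [Finset.sum_range_succ, Nat.choose_succ_self]
    have := Nat.sum_range_choose D
    have h3 : ((∑ i ∈ range (D + 1), D.choose i : ℕ) : ℝ) = ((2 ^ D : ℕ) : ℝ) := by rw [this]
    push_cast at h3
    rw [h3]
    simp
  rw [h2] at h
  apply mul_left_cancel₀ hs
  rw [h]
  ring

theorem SW_Ys {q : ℝ} (hs : (1 - q ^ 2) ≠ 0) (D : ℕ) :
    SW q (D + 2) (Ys D) = (1 - q ^ 2) ^ (D + 1) * om q 1 * 2 ^ D := by
  have e : Xs D = fun v => Ys D v + lin (D + 2) (gd D) v := by
    funext v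
    rw [← Xs_sub_Ys]
    ring
  have h := SW_Xs hs D
  rw [e, SW_add, SW_gd q hs, add_zero] at h
  exact h

theorem combo_X (q : ℝ) (D : ℕ) (a d : ℝ) :
    a • bet q ^ (D + 2) + d • GX q D =
      SW q (D + 2) (fun v => (a + d * Xs D v) • io ([] ++ flat v)) := by
  rw [bet_pow, GX_eq, ← SW_smul, ← SW_smul, ← SW_add]
  congr 1
  funext v
  rw [add_smul, mul_smul]
  rfl

theorem combo_Y (q : ℝ) (D : ℕ) (a d : ℝ) :
    a • bet q ^ (D + 2) + d • GY q D =
      SW q (D + 2) (fun v => (a + d * Ys D v) • io ([] ++ flat v)) := by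
  rw [bet_pow, GY_eq, ← SW_smul, ← SW_smul, ← SW_add]
  congr 1
  funext v
  rw [add_smul, mul_smul]
  rfl

theorem inner_close {q : ℝ} (h0 : 0 < q) (h1 : q < 1) (D : ℕ) {a d : ℝ} (ha : 0 < a)
    (hd : 0 ≤ d) :
    Close (d ^ 2 * cat D * om q 1 * (1 - q ^ 2) ^ (D + 1) / (4 * a))
      (a • bet q ^ (D + 2) + d • GX q D) (a • bet q ^ (D + 2) + d • GY q D) := by
  rw [combo_X, combo_Y]
  have hX : ∀ v, 0 ≤ d * Xs D v := fun v => mul_nonneg hd (Xs_nonneg D v)
  have hY : ∀ v, 0 ≤ d * Ys D v := fun v => mul_nonneg hd (Ys_nonneg D v)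
  refine (close_SW h0.le h1.le (D + 2) _ _ (fun v => ?_) (fun v => ?_) []).mono ?_
  · linarith [hX v]
  · linarith [hY v]
  · calc SW q (D + 2) (fun v => (a + d * Xs D v + (a + d * Ys D v)) / 2 -
          √((a + d * Xs D v) * (a + d * Ys D v)))
        ≤ SW q (D + 2) (fun v => (d ^ 2 / (8 * a)) • (lin (D + 2) (gd D) v ^ 2)) := by
          apply SW_mono h0.le h1.le
          intro v
          refine (sqrt_gap ha (by linarith [hX v]) (by linarith [hY v])).trans (le_of_eq ?_)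
          rw [← Xs_sub_Ys, smul_eq_mul]
          ring
      _ = (d ^ 2 / (8 * a)) * SW q (D + 2) (fun v => lin (D + 2) (gd D) v ^ 2) := by
          rw [SW_smul, smul_eq_mul]
      _ ≤ (d ^ 2 / (8 * a)) * ((1 - q ^ 2) ^ (D + 1) * om q 1 * (2 * cat D)) :=
          mul_le_mul_of_nonneg_left (SW_gd_sq h0 h1 D) (by positivity)
      _ = _ := by
          field_simp
          ring

theorem inner_close_zero {q : ℝ} (h0 : 0 < q) (h1 : q < 1) (D : ℕ) {d : ℝ}
    (hd : 0 ≤ d) :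
    Close (d * (2 ^ D * om q 1 * (1 - q ^ 2) ^ (D + 1)))
      ((0 : ℝ) • bet q ^ (D + 2) + d • GX q D) ((0 : ℝ) • bet q ^ (D + 2) + d • GY q D) := by
  rw [combo_X, combo_Y]
  have hX : ∀ v, 0 ≤ d * Xs D v := fun v => mul_nonneg hd (Xs_nonneg D v)
  have hY : ∀ v, 0 ≤ d * Ys D v := fun v => mul_nonneg hd (Ys_nonneg D v)
  have hs : (1 - q ^ 2) ≠ 0 := by nlinarith
  refine (close_SW h0.le h1.le (D + 2) _ _ (fun v => ?_) (fun v => ?_) []).mono ?_
  · linarith [hX v]
  · linarith [hY v]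
  · calc SW q (D + 2) (fun v => (0 + d * Xs D v + (0 + d * Ys D v)) / 2 -
          √((0 + d * Xs D v) * (0 + d * Ys D v)))
        ≤ SW q (D + 2) (fun v => (d / 2) • Xs D v + (d / 2) • Ys D v) := by
          apply SW_mono h0.le h1.le
          intro v
          have := Real.sqrt_nonneg ((0 + d * Xs D v) * (0 + d * Ys D v))
          simp only [smul_eq_mul]
          linarith
      _ = _ := by
          rw [SW_add, SW_smul, SW_smul]
          have e1 := SW_Xs hs D
          have e2 := SW_Ys hs D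
          have e3 : SW q (D + 2) (fun v => Xs D v) = SW q (D + 2) (Xs D) := rfl
          have e4 : SW q (D + 2) (fun v => Ys D v) = SW q (D + 2) (Ys D) := rfl
          rw [e3, e4, e1, e2, smul_eq_mul]
          ring

theorem Close.bet_left {δ : ℝ} {z w : Alg} {q : ℝ} (h0 : 0 ≤ q) (h1 : q ≤ 1)
    (h : Close δ z w) (c : ℕ) :
    Close ((1 - q ^ 2) ^ c * δ) (bet q ^ c * z) (bet q ^ c * w) := by
  induction c with
  | zero => simpa using h
  | succ c ih =>
    have := ih.mul_left (I := Fin 3) val (om q) (om_nonneg h0 h1)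
    rw [om_sum] at this
    rw [pow_succ' (1 - q ^ 2) c, pow_succ' (bet q) c, mul_assoc, mul_assoc, mul_assoc]
    exact this

theorem Close.bet_right {δ : ℝ} {z w : Alg} {q : ℝ} (h0 : 0 ≤ q) (h1 : q ≤ 1)
    (h : Close δ z w) (c : ℕ) :
    Close ((1 - q ^ 2) ^ c * δ) (z * bet q ^ c) (w * bet q ^ c) := by
  induction c with
  | zero => simpa using h
  | succ c ih =>
    have := ih.mul_right (I := Fin 3) val (om q) (om_nonneg h0 h1)
    rw [om_sum] at this
    rw [pow_succ (bet q), ← mul_assoc, ← mul_assoc, pow_succ' (1 - q ^ 2) c, mul_assoc]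
    exact this

end Vale.Agent.H26P321
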