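import Mathlib

namespace Vale.Agent.H26P321

/-- The trace of `x` when exactly the positions `i` with `keep i = true` survive:
the surviving bits of `x` in their original order. -/
def trace {n : ℕ} (x keep : Fin n → Bool) : List Bool :=
  ((List.finRange n).filter (fun i => keep i)).map x

/-- The probability, when each position is deleted independently with probability `q`,
that exactly the positions `i` with `keep i = true` survive. -/
noncomputable def maskWeight (q : ℝ) {n : ℕ} (keep : Fin n → Bool) : ℝ :=
  ∏ i, if keep i then 1 - q else q

/-- `est s z` is the probability that a randomized estimator outputs the string `z`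
when it is given the samples `s`. -/
def IsEstimator {n m : ℕ} (est : (Fin m → List Bool) → (Fin n → Bool) → ℝ) : Prop :=
  (∀ s z, 0 ≤ est s z) ∧ ∀ s, ∑ z, est s z = 1

/-- The probability that the estimator outputs `x` when it is given `m` independent
traces of `x` at deletion probability `q`. -/
noncomputable def successProb (q : ℝ) {n m : ℕ}
    (est : (Fin m → List Bool) → (Fin n → Bool) → ℝ) (x : Fin n → Bool) : ℝ :=
  ∑ K : Fin m → Fin n → Bool, (∏ j, maskWeight q (K j)) * est (fun j => trace x (K j)) x

/-- Some randomized estimator outputs `x` with probability at least `2/3` from `m`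
independent traces of `x`, for every `x` of length `n`. -/
def CanReconstruct (q : ℝ) (n m : ℕ) : Prop :=
  ∃ est : (Fin m → List Bool) → (Fin n → Bool) → ℝ,
    IsEstimator est ∧ ∀ x : Fin n → Bool, 2 / 3 ≤ successProb q est x

/-- The worst-case sample complexity of trace reconstruction. -/
noncomputable def sampleComplexity (q : ℝ) (n : ℕ) : ℕ :=
  sInf {m : ℕ | CanReconstruct q n m}

end Vale.Agent.H26P321
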