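import Vale.Agent.Lib.H26P321.TwoPoint

namespace Vale.Agent.H26P321

open Finset

theorem trace_full {n : ℕ} (x K : Fin n → Bool) (h : (trace x K).length = n) :
    K = fun _ => true := by
  unfold trace at h
  rw [List.length_map] at h
  have h2 : ((List.finRange n).filter (fun i => K i)).length = (List.finRange n).length := by
    rw [h, List.length_finRange]
  rw [List.length_filter_eq_length_iff] at h2
  funext i
  exact h2 i (List.mem_finRange i)

theorem trace_true {n : ℕ} (x : Fin n → Bool) : trace x (fun _ => true) = List.ofFn x := by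
  unfold trace
  rw [List.ofFn_eq_map]
  congr 1
  simp

theorem maskWeight_sum (q : ℝ) (n : ℕ) : ∑ K : Fin n → Bool, maskWeight q K = 1 := by
  unfold maskWeight
  have := Fintype.sum_pow (fun b : Bool => if b then 1 - q else q) n
  rw [← this]
  simp

theorem maskWeight_true (q : ℝ) (n : ℕ) :
    maskWeight q (fun _ : Fin n => true) = (1 - q) ^ n := by
  simp [maskWeight]

/-- The estimator that outputs any sample of full length. -/
noncomputable def dec {n m : ℕ} (s : Fin m → List Bool) : Fin n → Bool :=
  open Classical in
  if h : ∃ j, (s j).length = n then fun i => (s h.choose).get (i.cast h.choose_spec.symm)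
  else fun _ => false

theorem dec_eq {n m : ℕ} (x : Fin n → Bool) (K : Fin m → Fin n → Bool)
    (h : ∃ j, K j = fun _ => true) : dec (fun j => trace x (K j)) = x := by
  have h' : ∃ j, (trace x (K j)).length = n := by
    obtain ⟨j, hj⟩ := h
    refine ⟨j, ?_⟩
    rw [hj, trace_true, List.length_ofFn]
  unfold dec
  rw [dif_pos h']
  have h2 := trace_full x (K h'.choose) h'.choose_spec
  funext i
  simp only [h2, trace_true, List.get_eq_getElem, Fin.val_cast, List.getElem_ofFn, Fin.eta]

theorem exists_canReconstruct {q : ℝ} (h0 : 0 < q) (h1 : q < 1) (n : ℕ) :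
    ∃ m, CanReconstruct q n m := by
  classical
  have hp : 0 < (1 - q) ^ n := pow_pos (by linarith) n
  have hp1 : (1 - q) ^ n ≤ 1 := pow_le_one₀ (by linarith) (by linarith)
  obtain ⟨m, hm⟩ := exists_pow_lt_of_lt_one (show (0 : ℝ) < 1 / 3 by norm_num)
    (show 1 - (1 - q) ^ n < 1 by linarith)
  refine ⟨m, fun s z => if z = dec s then 1 else 0, ⟨?_, ?_⟩, ?_⟩
  · intro s z
    simp only
    split_ifs <;> norm_num
  · intro s
    simp
  · intro x
    unfold successProb
    have hw : ∀ K : Fin m → Fin n → Bool, 0 ≤ ∏ j, maskWeight q (K j) := fun K =>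
      Finset.prod_nonneg (fun j _ => maskWeight_nonneg h0.le h1.le _)
    have hle : ∀ K : Fin m → Fin n → Bool,
        (∏ j, maskWeight q (K j)) - ∏ j, (maskWeight q (K j) *
          (if K j = (fun _ => true) then 0 else 1)) ≤
        (∏ j, maskWeight q (K j)) * (if x = dec (fun j => trace x (K j)) then 1 else 0) := by
      intro K
      by_cases hK : ∃ j, K j = fun _ => true
      · rw [if_pos (dec_eq x K hK).symm]
        have : ∏ j, (maskWeight q (K j) * (if K j = (fun _ => true) then (0 : ℝ) else 1)) = 0 := by
          obtain ⟨j, hj⟩ := hK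
          apply Finset.prod_eq_zero (Finset.mem_univ j)
          simp [hj]
        rw [this]
        linarith
      · push Not at hK
        have : ∏ j, (maskWeight q (K j) * (if K j = (fun _ => true) then (0 : ℝ) else 1)) =
            ∏ j, maskWeight q (K j) := by
          apply Finset.prod_congr rfl
          intro j _
          rw [if_neg (hK j), mul_one]
        rw [this, sub_self]
        split_ifs
        · simpa using hw K
        · simp
    have hs : ∑ K : Fin m → Fin n → Bool, ((∏ j, maskWeight q (K j)) - ∏ j, (maskWeight q (K j) *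
          (if K j = (fun _ => true) then 0 else 1))) = 1 - (1 - (1 - q) ^ n) ^ m := by
      rw [Finset.sum_sub_distrib]
      have e1 := Fintype.sum_pow (fun K : Fin n → Bool => maskWeight q K) m
      have e2 := Fintype.sum_pow (fun K : Fin n → Bool =>
        maskWeight q K * (if K = (fun _ => true) then 0 else 1)) m
      rw [← e1, ← e2, maskWeight_sum, one_pow]
      have e3 : ∑ K : Fin n → Bool, maskWeight q K * (if K = (fun _ => true) then (0 : ℝ) else 1)
          = 1 - (1 - q) ^ n := by
        have : ∀ K : Fin n → Bool, maskWeight q K * (if K = (fun _ => true) then (0 : ℝ) else 1)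
            = maskWeight q K - (if K = (fun _ => true) then maskWeight q K else 0) := by
          intro K
          split_ifs <;> ring
        rw [Finset.sum_congr rfl (fun K _ => this K), Finset.sum_sub_distrib, maskWeight_sum,
          Finset.sum_ite_eq' , if_pos (Finset.mem_univ _), maskWeight_true]
      rw [e3]
    calc (2 : ℝ) / 3 ≤ 1 - (1 - (1 - q) ^ n) ^ m := by linarith
      _ = _ := hs.symm
      _ ≤ _ := Finset.sum_le_sum (fun K _ => hle K)

end Vale.Agent.H26P321
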