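import Vale.Agent.Lib.H26P321.Core

namespace Vale.Agent.H26P321

open Finset

/-- Binomial average of the placements of `M`. -/
noncomputable def G (q : ℝ) (D : ℕ) (M : Alg) : Alg :=
  ∑ b ∈ range (D + 1), (D.choose b : ℝ) • (bet q ^ b * M * bet q ^ (D - b))

/-- Coefficient in the expansion. -/
noncomputable def coef (q : ℝ) (k D c : ℕ) : ℝ :=
  (k.choose D : ℝ) * ((k - D).choose c : ℝ) * (q ^ 2) ^ D * (q ^ 4) ^ (k - D - c)

theorem pow_split (q : ℝ) (L R : Module.End ℝ Alg) (hc : Commute L R) (k : ℕ) :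
    ((q ^ 2 • (1 : Module.End ℝ Alg) + L) * (q ^ 2 • 1 + R)) ^ k =
      ∑ D ∈ range (k + 1), ∑ c ∈ range (k - D + 1),
        coef q k D c • (L ^ c * (∑ b ∈ range (D + 1), (D.choose b : ℝ) • (L ^ b * R ^ (D - b)))
          * R ^ c) := by
  have e1 : (q ^ 2 • (1 : Module.End ℝ Alg) + L) * (q ^ 2 • 1 + R) =
      q ^ 2 • (L + R) + (L * R + q ^ 4 • 1) := by
    simp only [add_mul, mul_add, smul_mul_assoc, mul_smul_comm, one_mul, mul_one, smul_add,
      smul_smul]
    rw [show q ^ 2 * q ^ 2 = q ^ 4 by ring]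
    abel
  have hLR : Commute (L + R) (L * R) := by
    apply Commute.add_left
    · exact (Commute.refl L).mul_right hc
    · exact hc.symm.mul_right (Commute.refl R)
  have hcomm : Commute (q ^ 2 • (L + R)) (L * R + q ^ 4 • 1) := by
    apply Commute.add_right
    · exact hLR.smul_left _
    · exact ((Commute.one_right _).smul_right _)
  rw [e1, hcomm.add_pow]
  apply Finset.sum_congr rfl
  intro D _
  have hc2 : Commute (L * R) (q ^ 4 • (1 : Module.End ℝ Alg)) :=
    (Commute.one_right _).smul_right _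
  rw [hc2.add_pow, smul_pow, Finset.mul_sum, Finset.sum_mul]
  apply Finset.sum_congr rfl
  intro c _
  rw [smul_pow, one_pow]
  have e2 : (L + R) ^ D = ∑ b ∈ range (D + 1), (D.choose b : ℝ) • (L ^ b * R ^ (D - b)) := by
    rw [hc.add_pow]
    apply Finset.sum_congr rfl
    intro b _
    rw [← nsmul_eq_mul', Nat.cast_smul_eq_nsmul]
  rw [← e2, hc.mul_pow]
  have e3 : (L + R) ^ D * (L ^ c * R ^ c) = L ^ c * (L + R) ^ D * R ^ c := by
    have h1 : Commute ((L + R) ^ D) (L ^ c) :=
      ((Commute.refl L).add_left hc.symm).pow_pow D c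
    rw [← mul_assoc, h1.eq]
  rw [← nsmul_eq_mul', ← nsmul_eq_mul', ← Nat.cast_smul_eq_nsmul ℝ, ← Nat.cast_smul_eq_nsmul ℝ]
  simp only [smul_mul_assoc, mul_smul_comm, mul_one, smul_smul]
  rw [← e3]
  unfold coef
  congr 1
  ring

theorem sandwich (q : ℝ) (k : ℕ) (M : Alg) :
    (q ^ 2 • (1 : Alg) + bet q) ^ k * M * (q ^ 2 • (1 : Alg) + bet q) ^ k =
      ∑ D ∈ range (k + 1), ∑ c ∈ range (k - D + 1),
        coef q k D c • (bet q ^ c * G q D M * bet q ^ c) := by
  set L : Module.End ℝ Alg := LinearMap.mulLeft ℝ (bet q) with hL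
  set R : Module.End ℝ Alg := LinearMap.mulRight ℝ (bet q) with hR
  have hc : Commute L R := LinearMap.commute_mulLeft_right _ _
  have hl : LinearMap.mulLeft ℝ (q ^ 2 • (1 : Alg) + bet q) =
      q ^ 2 • (1 : Module.End ℝ Alg) + L := by
    apply LinearMap.ext
    intro z
    simp [hL, add_mul]
  have hr : LinearMap.mulRight ℝ (q ^ 2 • (1 : Alg) + bet q) =
      q ^ 2 • (1 : Module.End ℝ Alg) + R := by
    apply LinearMap.ext
    intro z
    simp [hR, mul_add]
  have hLp : ∀ (n : ℕ) (z : Alg), (L ^ n) z = bet q ^ n * z := by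
    intro n z
    rw [hL, LinearMap.pow_mulLeft]
    rfl
  have hRp : ∀ (n : ℕ) (z : Alg), (R ^ n) z = z * bet q ^ n := by
    intro n z
    rw [hR, LinearMap.pow_mulRight]
    rfl
  have hS := pow_split q L R hc k
  rw [← hl, ← hr, (LinearMap.commute_mulLeft_right (R := ℝ) _ _).mul_pow, LinearMap.pow_mulLeft,
    LinearMap.pow_mulRight] at hS
  have hM := congrArg (fun f : Module.End ℝ Alg => f M) hS
  simp only [Module.End.mul_apply, LinearMap.mulLeft_apply, LinearMap.mulRight_apply] at hM
  rw [mul_assoc, hM, LinearMap.sum_apply]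
  apply Finset.sum_congr rfl
  intro D _
  rw [LinearMap.sum_apply]
  apply Finset.sum_congr rfl
  intro c _
  rw [LinearMap.smul_apply, Module.End.mul_apply, Module.End.mul_apply, hLp, hRp,
    LinearMap.sum_apply]
  congr 1
  unfold G
  rw [mul_assoc]
  congr 1
  rw [Finset.sum_mul]
  apply Finset.sum_congr rfl
  intro b _
  rw [LinearMap.smul_apply, Module.End.mul_apply, hLp, hRp]
  simp only [smul_mul_assoc, mul_assoc]
  congr 3
  rw [← pow_add, ← pow_add, add_comm]

theorem G_add (q : ℝ) (D : ℕ) (M N : Alg) : G q D (M + N) = G q D M + G q D N := by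
  unfold G
  rw [← Finset.sum_add_distrib]
  apply Finset.sum_congr rfl
  intro b _
  rw [mul_add, add_mul, smul_add]

theorem G_smul (q : ℝ) (D : ℕ) (r : ℝ) (M : Alg) : G q D (r • M) = r • G q D M := by
  unfold G
  rw [Finset.smul_sum]
  apply Finset.sum_congr rfl
  intro b _
  rw [mul_smul_comm, smul_mul_assoc, smul_comm]

theorem G_one (q : ℝ) (D : ℕ) : G q D 1 = (2 : ℝ) ^ D • bet q ^ D := by
  unfold G
  have : ∀ b ∈ range (D + 1), (D.choose b : ℝ) • (bet q ^ b * 1 * bet q ^ (D - b)) =
      (D.choose b : ℝ) • bet q ^ D := by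
    intro b hb
    have hb' : b ≤ D := by
      have := Finset.mem_range.mp hb
      omega
    rw [mul_one, ← pow_add]
    congr 2
    omega
  rw [Finset.sum_congr rfl this, ← Finset.sum_smul]
  congr 1
  have := Nat.sum_range_choose D
  have h3 : ((∑ i ∈ range (D + 1), D.choose i : ℕ) : ℝ) = ((2 ^ D : ℕ) : ℝ) := by rw [this]
  push_cast at h3
  exact h3

/-- The middle part, with the extra bit before the block. -/
theorem mid_X (q : ℝ) (hq : q ≠ 0) : law q [true, false, true] =
    q ^ 3 • (1 : Alg) + ((((1 - q) * q ^ 2) • io [true] + q • bet q) +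
      q⁻¹ • (xi q * bet q)) := by
  have e : law q [true, false, true] = step q true * law q [false, true] := law_cons _ _ _
  rw [e, law_block]
  unfold step xi
  rw [om_one]
  simp only [add_mul, mul_add, smul_mul_assoc, mul_smul_comm, one_mul, mul_one, smul_add]
  simp only [smul_smul]
  rw [show q⁻¹ * ((1 - q) * q) = 1 - q by field_simp, show q ^ 2 * q = q ^ 3 by ring,
    show q ^ 2 * (1 - q) = (1 - q) * q ^ 2 by ring]
  abel

/-- The middle part, with the extra bit after the block. -/
theorem mid_Y (q : ℝ) (hq : q ≠ 0) : law q [false, true, true] =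
    q ^ 3 • (1 : Alg) + ((((1 - q) * q ^ 2) • io [true] + q • bet q) +
      q⁻¹ • (bet q * xi q)) := by
  have e : law q [false, true, true] = law q [false, true] * law q [true] :=
    law_append q [false, true] [true]
  rw [e, law_block]
  have e2 : law q [true] = step q true := by simp [law]
  rw [e2]
  unfold step xi
  rw [om_one]
  simp only [add_mul, mul_add, smul_mul_assoc, mul_smul_comm, one_mul, mul_one, smul_add]
  simp only [smul_smul]
  rw [show q⁻¹ * ((1 - q) * q) = 1 - q by field_simp]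
  ring_nf
  abel_nf

end Vale.Agent.H26P321
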