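import Vale.Agent.Lib.H26P321.Assemble
import Vale.Agent.Lib.H26P321.Exists

namespace Vale.Agent.H26P321

open Finset

theorem close_trivial {q : ℝ} (h0 : 0 < q) (h1 : q < 1) {n : ℕ} (x y : Fin n → Bool) :
    Close 1 (law q (List.ofFn x)) (law q (List.ofFn y)) := by
  refine ⟨(Fin n → Bool) ⊕ (Fin n → Bool), inferInstance, Sum.elim (trace x) (trace y),
    Sum.elim (maskWeight q) (fun _ => 0), Sum.elim (fun _ => 0) (maskWeight q), ?_, ?_, ?_, ?_, ?_⟩
  · rintro (r | r)
    · exact maskWeight_nonneg h0.le h1.le r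
    · exact le_rfl
  · rintro (r | r)
    · exact le_rfl
    · exact maskWeight_nonneg h0.le h1.le r
  · rw [Fintype.sum_sum_type]
    simp [trace_repr]
  · rw [Fintype.sum_sum_type]
    simp [trace_repr]
  · rw [Fintype.sum_sum_type]
    simp only [Sum.elim_inl, Sum.elim_inr, mul_zero, zero_mul, Real.sqrt_zero, sub_zero, add_zero,
      zero_add]
    rw [← Finset.sum_div, maskWeight_sum]
    norm_num

theorem Close.tail {δ : ℝ} {z w : Alg} {q : ℝ} (h0 : 0 ≤ q) (h1 : q ≤ 1)
    (h : Close δ z w) (l : List Bool) : Close δ (z * law q l) (w * law q l) := by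
  induction l generalizing z w with
  | nil => simpa [law_nil] using h
  | cons b l ih =>
    rw [law_cons, ← mul_assoc, ← mul_assoc]
    apply ih
    have := h.mul_right (I := Bool) (fun i => if i then [b] else [])
      (fun i => if i then 1 - q else q) (by
        intro i
        cases i
        · simpa using h0
        · simpa using h1)
    have e : ∑ i : Bool, (if i then 1 - q else q) • io (if i then [b] else []) = step q b := by
      simp [step, io_nil, add_comm]
    have e2 : ∑ i : Bool, (if i then 1 - q else q) = 1 := by simp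
    rw [e, e2, one_mul] at this
    exact this

/-- `k` copies of the block 01. -/
def blocks (k : ℕ) : List Bool := (List.replicate k [false, true]).flatten

theorem blocks_length (k : ℕ) : (blocks k).length = 2 * k := by
  simp [blocks, mul_comm]

theorem law_blocks (q : ℝ) (k : ℕ) :
    law q (blocks k) = (q ^ 2 • (1 : Alg) + bet q) ^ k := by
  induction k with
  | zero => simp [blocks, law_nil]
  | succ k ih =>
    have : blocks (k + 1) = [false, true] ++ blocks k := by
      simp [blocks, List.replicate_succ]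
    rw [this, law_append, ih, law_block, pow_succ' (q ^ 2 • (1 : Alg) + bet q) k]

theorem exists_ofFn (L : List Bool) (n : ℕ) (h : L.length = n) :
    ∃ x : Fin n → Bool, List.ofFn x = L := by
  subst h
  exact ⟨L.get, List.ofFn_get L⟩

theorem lower_aux {q : ℝ} (h0 : 0 < q) (h1 : q < 1) (n m : ℕ) (hm : CanReconstruct q n m) :
    q ^ 8 / 612 * (n : ℝ) ^ ((3 : ℝ) / 2) ≤ m := by
  obtain ⟨est, hest, hsucc⟩ := hm
  have hq8 : 0 < q ^ 8 := by positivity
  have hq81 : q ^ 8 ≤ 1 := pow_le_one₀ h0.le h1.le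
  rcases Nat.lt_or_ge n 3 with hn | hn
  · rcases Nat.eq_zero_or_pos n with hz | hpos
    · subst hz
      simp
    · have hne : (fun _ : Fin n => true) ≠ fun _ => false := by
        intro h
        have := congrFun h ⟨0, hpos⟩
        simp at this
      have key := two_point _ _ hne (close_trivial h0 h1 _ _) est hest (hsucc _) (hsucc _)
      have hn2 : (n : ℝ) ≤ 2 := by
        have : n ≤ 2 := by omega
        exact_mod_cast this
      have e1 : (n : ℝ) ^ ((3 : ℝ) / 2) ≤ 4 := by
        calc (n : ℝ) ^ ((3 : ℝ) / 2) ≤ (2 : ℝ) ^ ((3 : ℝ) / 2) :=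
              Real.rpow_le_rpow (Nat.cast_nonneg n) hn2 (by norm_num)
          _ ≤ (2 : ℝ) ^ (2 : ℝ) := Real.rpow_le_rpow_of_exponent_le (by norm_num) (by norm_num)
          _ = 4 := by
              rw [show (2 : ℝ) = ((2 : ℕ) : ℝ) by norm_num, Real.rpow_natCast]
              norm_num
      have e2 : 0 ≤ (n : ℝ) ^ ((3 : ℝ) / 2) := Real.rpow_nonneg (Nat.cast_nonneg n) _
      nlinarith
  · obtain ⟨k, t, ht, hnk⟩ : ∃ k t : ℕ, t ≤ 3 ∧ n = 4 * k + 3 + t :=
      ⟨(n - 3) / 4, (n - 3) % 4, by omega, by omega⟩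
    set L₁ : List Bool := blocks k ++ ([true, false, true] ++ (blocks k ++
      List.replicate t false)) with hL₁
    set L₂ : List Bool := blocks k ++ ([false, true, true] ++ (blocks k ++
      List.replicate t false)) with hL₂
    have hl₁ : L₁.length = n := by
      simp only [hL₁, List.length_append, blocks_length, List.length_replicate,
        List.length_cons, List.length_nil]
      omega
    have hl₂ : L₂.length = n := by
      simp only [hL₂, List.length_append, blocks_length, List.length_replicate,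
        List.length_cons, List.length_nil]
      omega
    obtain ⟨x, hx⟩ := exists_ofFn L₁ n hl₁
    obtain ⟨y, hy⟩ := exists_ofFn L₂ n hl₂
    have hne : x ≠ y := by
      intro h
      have h2 : L₁ = L₂ := by rw [← hx, ← hy, h]
      rw [hL₁, hL₂, List.append_cancel_left_eq] at h2
      simp at h2
    set τ : ℝ := √((k : ℝ) + 2) with hτ
    have hτ2 : τ ^ 2 = k + 2 := Real.sq_sqrt (by positivity)
    have hτ1 : 1 ≤ τ := by
      rw [hτ, Real.one_le_sqrt]
      have : (0 : ℝ) ≤ k := Nat.cast_nonneg k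
      linarith
    have hτ0 : 0 < τ := by linarith
    have hclose : Close ((17 / 4) / q ^ 8 / τ ^ 3) (law q (List.ofFn x)) (law q (List.ofFn y)) := by
      rw [hx, hy, hL₁, hL₂]
      simp only [law_append, law_blocks, ← mul_assoc]
      exact (close_main h0 h1 k hτ1 hτ2).tail h0.le h1.le _
    have key := two_point x y hne hclose est hest (hsucc x) (hsucc y)
    have hm : q ^ 8 * τ ^ 3 / (153 / 2) ≤ m := by
      rw [div_le_iff₀ (by norm_num)]
      have e : 18 * ((m : ℝ) * ((17 / 4) / q ^ 8 / τ ^ 3)) * (q ^ 8 * τ ^ 3) = m * (153 / 2) := by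
        field_simp
        ring
      have h3 : 1 * (q ^ 8 * τ ^ 3) ≤ 18 * ((m : ℝ) * ((17 / 4) / q ^ 8 / τ ^ 3)) *
          (q ^ 8 * τ ^ 3) := mul_le_mul_of_nonneg_right key (by positivity)
      linarith
    have hn4 : (n : ℝ) ≤ (2 * τ) ^ 2 := by
      have : (2 * τ) ^ 2 = 4 * k + 8 := by
        rw [mul_pow, hτ2]
        ring
      rw [this]
      have h5 : n ≤ 4 * k + 8 := by omega
      exact_mod_cast h5
    have hpow : (n : ℝ) ^ ((3 : ℝ) / 2) ≤ 8 * τ ^ 3 := by
      calc (n : ℝ) ^ ((3 : ℝ) / 2) ≤ ((2 * τ) ^ 2) ^ ((3 : ℝ) / 2) :=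
            Real.rpow_le_rpow (Nat.cast_nonneg n) hn4 (by norm_num)
        _ = 8 * τ ^ 3 := by
            rw [← Real.rpow_natCast (2 * τ) 2, ← Real.rpow_mul (by positivity)]
            have : ((2 : ℕ) : ℝ) * (3 / 2) = ((3 : ℕ) : ℝ) := by norm_num
            rw [this, Real.rpow_natCast]
            ring
    calc q ^ 8 / 612 * (n : ℝ) ^ ((3 : ℝ) / 2) ≤ q ^ 8 / 612 * (8 * τ ^ 3) :=
          mul_le_mul_of_nonneg_left hpow (by positivity)
      _ = q ^ 8 * τ ^ 3 / (153 / 2) := by ring
      _ ≤ m := hm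

end Vale.Agent.H26P321
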