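import Vale.Agent.Lib.H26P321.Close

namespace Vale.Agent.H26P321

open Finset

/-- The nonempty traces of the block 01. -/
def val : Fin 3 → List Bool := ![[false], [true], [false, true]]

/-- The probabilities of the nonempty traces of the block 01. -/
noncomputable def om (q : ℝ) : Fin 3 → ℝ := ![(1 - q) * q, (1 - q) * q, (1 - q) * (1 - q)]

/-- The part of the law of the block 01 supported on nonempty strings. -/
noncomputable def bet (q : ℝ) : Alg := ∑ a, om q a • io (val a)

/-- Concatenation of symbols. -/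
def flat (v : List (Fin 3)) : List Bool := v.flatMap val

theorem flat_nil : flat [] = [] := rfl

theorem flat_cons (a : Fin 3) (v : List (Fin 3)) : flat (a :: v) = val a ++ flat v := by
  simp [flat]

theorem om_nonneg {q : ℝ} (h0 : 0 ≤ q) (h1 : q ≤ 1) (a : Fin 3) : 0 ≤ om q a := by
  have : 0 ≤ 1 - q := by linarith
  fin_cases a <;> simp [om] <;> positivity

theorem om_sum (q : ℝ) : ∑ a, om q a = 1 - q ^ 2 := by
  simp [Fin.sum_univ_three, om]
  ring

theorem law_block (q : ℝ) : law q [false, true] = q ^ 2 • (1 : Alg) + bet q := by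
  have e : io [false, true] = io [false] * io [true] := by rw [← io_append]; rfl
  simp only [law, List.map_cons, List.map_nil, List.prod_cons, List.prod_nil, mul_one, step, bet,
    Fin.sum_univ_three]
  simp only [val, om, Matrix.cons_val_zero, Matrix.cons_val_one, Matrix.cons_val]
  rw [e]
  simp only [add_mul, mul_add, smul_mul_assoc, mul_smul_comm, one_mul, mul_one, smul_add]
  simp only [smul_smul]
  rw [sq, mul_comm q (1 - q)]
  abel

/-- Weighted sum over words of symbols of a given length. -/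
noncomputable def SW (q : ℝ) {E : Type*} [AddCommGroup E] [Module ℝ E] :
    ℕ → (List (Fin 3) → E) → E
  | 0, Φ => Φ []
  | ℓ + 1, Φ => ∑ a, om q a • SW q ℓ (fun v => Φ (a :: v))

section linear

variable {E : Type*} [AddCommGroup E] [Module ℝ E] (q : ℝ)

theorem SW_zero (Φ : List (Fin 3) → E) : SW q 0 Φ = Φ [] := rfl

theorem SW_succ (ℓ : ℕ) (Φ : List (Fin 3) → E) :
    SW q (ℓ + 1) Φ = ∑ a, om q a • SW q ℓ (fun v => Φ (a :: v)) := rfl

theorem SW_add (ℓ : ℕ) (Φ Ψ : List (Fin 3) → E) :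
    SW q ℓ (fun v => Φ v + Ψ v) = SW q ℓ Φ + SW q ℓ Ψ := by
  induction ℓ generalizing Φ Ψ with
  | zero => rfl
  | succ ℓ ih =>
    simp only [SW_succ]
    rw [← Finset.sum_add_distrib]
    apply Finset.sum_congr rfl
    intro a _
    rw [ih, smul_add]

theorem SW_smul (ℓ : ℕ) (c : ℝ) (Φ : List (Fin 3) → E) :
    SW q ℓ (fun v => c • Φ v) = c • SW q ℓ Φ := by
  induction ℓ generalizing Φ with
  | zero => rfl
  | succ ℓ ih =>
    simp only [SW_succ]
    rw [Finset.smul_sum]
    apply Finset.sum_congr rfl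
    intro a _
    rw [ih, smul_comm]

theorem SW_zero' (ℓ : ℕ) : SW q ℓ (fun _ => (0 : E)) = 0 := by
  have := SW_smul (E := E) q ℓ 0 (fun _ => 0)
  simpa using this

theorem SW_sum {ι : Type*} (ℓ : ℕ) (s : Finset ι) (Φ : ι → List (Fin 3) → E) :
    SW q ℓ (fun v => ∑ i ∈ s, Φ i v) = ∑ i ∈ s, SW q ℓ (Φ i) := by
  classical
  induction s using Finset.induction_on with
  | empty => simpa using SW_zero' (E := E) q ℓ
  | insert a s ha ih =>
    rw [Finset.sum_insert ha, ← ih, ← SW_add]
    congr 1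
    funext v
    rw [Finset.sum_insert ha]

end linear

theorem SW_mul_left (q : ℝ) (ℓ : ℕ) (z : Alg) (Φ : List (Fin 3) → Alg) :
    z * SW q ℓ Φ = SW q ℓ (fun v => z * Φ v) := by
  induction ℓ generalizing Φ with
  | zero => rfl
  | succ ℓ ih =>
    simp only [SW_succ]
    rw [Finset.mul_sum]
    apply Finset.sum_congr rfl
    intro a _
    rw [mul_smul_comm, ih]

theorem SW_mono {q : ℝ} (h0 : 0 ≤ q) (h1 : q ≤ 1) (ℓ : ℕ) (Φ Ψ : List (Fin 3) → ℝ)
    (h : ∀ v, Φ v ≤ Ψ v) : SW q ℓ Φ ≤ SW q ℓ Ψ := by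
  induction ℓ generalizing Φ Ψ with
  | zero => exact h []
  | succ ℓ ih =>
    simp only [SW_succ]
    apply Finset.sum_le_sum
    intro a _
    exact smul_le_smul_of_nonneg_left (ih _ _ (fun v => h _)) (om_nonneg h0 h1 a)

theorem SW_const (q : ℝ) (ℓ : ℕ) (c : ℝ) :
    SW q ℓ (fun _ => c) = (1 - q ^ 2) ^ ℓ * c := by
  induction ℓ with
  | zero => simp [SW_zero]
  | succ ℓ ih =>
    simp only [SW_succ, ih]
    simp only [smul_eq_mul]
    rw [← Finset.sum_mul, om_sum]
    ring

theorem bet_pow (q : ℝ) (ℓ : ℕ) : bet q ^ ℓ = SW q ℓ (fun v => io (flat v)) := by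
  induction ℓ with
  | zero => simp [SW_zero, flat_nil, io_nil]
  | succ ℓ ih =>
    rw [pow_succ', ih, bet, Finset.sum_mul, SW_succ]
    apply Finset.sum_congr rfl
    intro a _
    rw [smul_mul_assoc, SW_mul_left]
    congr 2
    funext v
    rw [flat_cons, io_append]

/-- Indicator that the symbol number `i` of `v` is the symbol 1. -/
def ind (v : List (Fin 3)) (i : ℕ) : ℝ := if v[i]? = some 1 then 1 else 0

theorem ind_cons_zero (a : Fin 3) (v : List (Fin 3)) :
    ind (a :: v) 0 = if a = 1 then 1 else 0 := by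
  simp [ind]

theorem ind_cons_succ (a : Fin 3) (v : List (Fin 3)) (i : ℕ) :
    ind (a :: v) (i + 1) = ind v i := by
  simp [ind]

theorem ind_nonneg (v : List (Fin 3)) (i : ℕ) : 0 ≤ ind v i := by
  unfold ind
  split_ifs <;> norm_num

/-- The defect. -/
noncomputable def xi (q : ℝ) : Alg := om q 1 • io [true]

theorem insert_pow (q : ℝ) (j m : ℕ) :
    bet q ^ j * xi q * bet q ^ m = SW q (j + m + 1) (fun v => ind v j • io (flat v)) := by
  induction j with
  | zero =>
    rw [pow_zero, one_mul, zero_add, SW_succ, bet_pow, xi, smul_mul_assoc, SW_mul_left]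
    rw [Finset.sum_eq_single (1 : Fin 3)]
    · congr 2
      funext v
      rw [ind_cons_zero, if_pos rfl, one_smul, flat_cons, io_append]
      rfl
    · intro a _ ha
      have : (fun v : List (Fin 3) => ind (a :: v) 0 • io (flat (a :: v))) = fun _ => 0 := by
        funext v
        rw [ind_cons_zero, if_neg ha, zero_smul]
      rw [this, SW_zero', smul_zero]
    · intro h
      exact absurd (Finset.mem_univ _) h
  | succ j ih =>
    have e : j + 1 + m + 1 = (j + m + 1) + 1 := by ring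
    rw [pow_succ', mul_assoc, mul_assoc, ← mul_assoc (bet q ^ j), ih, e]
    conv_rhs => rw [SW_succ]
    rw [bet, Finset.sum_mul]
    apply Finset.sum_congr rfl
    intro a _
    rw [smul_mul_assoc, SW_mul_left]
    congr 2
    funext v
    rw [ind_cons_succ, flat_cons, io_append, mul_smul_comm]

theorem close_SW {q : ℝ} (h0 : 0 ≤ q) (h1 : q ≤ 1) (ℓ : ℕ) (μ ν : List (Fin 3) → ℝ)
    (hμ : ∀ v, 0 ≤ μ v) (hν : ∀ v, 0 ≤ ν v) (u : List Bool) :
    Close (SW q ℓ (fun v => (μ v + ν v) / 2 - √(μ v * ν v)))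
      (SW q ℓ (fun v => μ v • io (u ++ flat v))) (SW q ℓ (fun v => ν v • io (u ++ flat v))) := by
  induction ℓ generalizing μ ν u with
  | zero =>
    simp only [SW_zero, flat_nil, List.append_nil]
    exact Close.single (hμ _) (hν _) u
  | succ ℓ ih =>
    simp only [SW_succ]
    apply Close.sum
    intro a _
    have := (ih (fun v => μ (a :: v)) (fun v => ν (a :: v)) (fun v => hμ _) (fun v => hν _)
      (u ++ val a)).smul (om_nonneg h0 h1 a)
    simpa only [flat_cons, List.append_assoc, smul_eq_mul] using this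

/-- Linear statistic. -/
noncomputable def lin (ℓ : ℕ) (g : ℕ → ℝ) (v : List (Fin 3)) : ℝ :=
  ∑ i ∈ range ℓ, g i * ind v i

theorem lin_cons (ℓ : ℕ) (g : ℕ → ℝ) (a : Fin 3) (v : List (Fin 3)) :
    lin (ℓ + 1) g (a :: v) = (if a = 1 then g 0 else 0) + lin ℓ (fun i => g (i + 1)) v := by
  unfold lin
  rw [Finset.sum_range_succ', add_comm]
  simp only [ind_cons_zero, ind_cons_succ]
  simp

theorem first_moment (q : ℝ) (ℓ : ℕ) (g : ℕ → ℝ) :
    (1 - q ^ 2) * SW q ℓ (lin ℓ g) =
      (1 - q ^ 2) ^ ℓ * (om q 1 * ∑ i ∈ range ℓ, g i) := by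
  induction ℓ generalizing g with
  | zero => simp [SW_zero, lin]
  | succ ℓ ih =>
    rw [SW_succ, Finset.sum_range_succ']
    have e : ∀ a : Fin 3, SW q ℓ (fun v => lin (ℓ + 1) g (a :: v)) =
        (if a = 1 then (1 - q ^ 2) ^ ℓ * g 0 else 0) + SW q ℓ (lin ℓ (fun i => g (i + 1))) := by
      intro a
      have e1 : (fun v => lin (ℓ + 1) g (a :: v)) =
          fun v => (if a = 1 then g 0 else 0) + lin ℓ (fun i => g (i + 1)) v := by
        funext v
        exact lin_cons ℓ g a v
      rw [e1, SW_add, SW_const]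
      split_ifs <;> ring
    simp only [e, smul_eq_mul, mul_add, Finset.sum_add_distrib, mul_ite, mul_zero]
    rw [Finset.sum_ite_eq' univ (1 : Fin 3), if_pos (Finset.mem_univ _), ← Finset.sum_mul, om_sum]
    have := ih (fun i => g (i + 1))
    linear_combination (1 - q ^ 2) * this

theorem second_moment (q : ℝ) (ℓ : ℕ) (g : ℕ → ℝ) :
    (1 - q ^ 2) ^ 2 * SW q ℓ (fun v => lin ℓ g v ^ 2) =
      (1 - q ^ 2) ^ ℓ * (om q 1 ^ 2 * (∑ i ∈ range ℓ, g i) ^ 2 +
        om q 1 * (1 - q ^ 2 - om q 1) * ∑ i ∈ range ℓ, g i ^ 2) := by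
  induction ℓ generalizing g with
  | zero => simp [SW_zero, lin]
  | succ ℓ ih =>
    rw [SW_succ, Finset.sum_range_succ', Finset.sum_range_succ' (fun i => g i ^ 2)]
    have e : ∀ a : Fin 3, SW q ℓ (fun v => lin (ℓ + 1) g (a :: v) ^ 2) =
        (if a = 1 then ((1 - q ^ 2) ^ ℓ * g 0 ^ 2 +
          2 * g 0 * SW q ℓ (lin ℓ (fun i => g (i + 1)))) else 0) +
          SW q ℓ (fun v => lin ℓ (fun i => g (i + 1)) v ^ 2) := by
      intro a
      by_cases ha : a = 1
      · have e1 : (fun v => lin (ℓ + 1) g (a :: v) ^ 2) =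
            fun v => (g 0 ^ 2 + (2 * g 0) • lin ℓ (fun i => g (i + 1)) v) +
              lin ℓ (fun i => g (i + 1)) v ^ 2 := by
          funext v
          rw [lin_cons, if_pos ha, smul_eq_mul]
          ring
        rw [e1, SW_add, SW_add, SW_const, if_pos ha, SW_smul, smul_eq_mul]
      · have e1 : (fun v => lin (ℓ + 1) g (a :: v) ^ 2) =
            fun v => lin ℓ (fun i => g (i + 1)) v ^ 2 := by
          funext v
          rw [lin_cons, if_neg ha, zero_add]
        rw [e1, if_neg ha, zero_add]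
    simp only [e, smul_eq_mul, mul_add, Finset.sum_add_distrib, mul_ite, mul_zero]
    have e2 : ∑ x : Fin 3, (if x = 1 then
        om q x * ((1 - q ^ 2) ^ ℓ * g 0 ^ 2) +
        om q x * (2 * g 0 * SW q ℓ (lin ℓ (fun i => g (i + 1)))) else 0) =
        om q 1 * ((1 - q ^ 2) ^ ℓ * g 0 ^ 2) +
        om q 1 * (2 * g 0 * SW q ℓ (lin ℓ (fun i => g (i + 1)))) := by
      rw [Finset.sum_ite_eq' univ (1 : Fin 3), if_pos (Finset.mem_univ _)]
    rw [e2, ← Finset.sum_mul, om_sum]
    have h1 := first_moment q ℓ (fun i => g (i + 1))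
    have h2 := ih (fun i => g (i + 1))
    linear_combination (1 - q ^ 2) * h2 + (2 * g 0 * om q 1 * (1 - q ^ 2)) * h1

end Vale.Agent.H26P321
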