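import Vale.Agent.Lib.H26P321.Close

namespace Vale.Agent.H26P321

open Finset

theorem sqrt_le_lin {a b t : ℝ} (ha : 0 ≤ a) (hb : 0 ≤ b) (ht : 0 < t) :
    √(a * b) ≤ (t * a + b / t) / 2 := by
  rw [Real.sqrt_le_left (by positivity)]
  have h : t * a * (b / t) = a * b := by field_simp
  nlinarith [sq_nonneg (t * a - b / t)]

theorem maskWeight_nonneg {q : ℝ} (h0 : 0 ≤ q) (h1 : q ≤ 1) {n : ℕ} (K : Fin n → Bool) :
    0 ≤ maskWeight q K := by
  unfold maskWeight
  apply Finset.prod_nonneg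
  intro i _
  split_ifs <;> linarith

theorem two_point {q : ℝ} {n m : ℕ} (x y : Fin n → Bool)
    (hxy : x ≠ y) {δ : ℝ} (hδ : Close δ (law q (List.ofFn x)) (law q (List.ofFn y)))
    (est : (Fin m → List Bool) → (Fin n → Bool) → ℝ) (hest : IsEstimator est)
    (hx : 2 / 3 ≤ successProb q est x) (hy : 2 / 3 ≤ successProb q est y) :
    1 ≤ 18 * (m * δ) := by
  obtain ⟨R, iR, g, μ, ν, hμ, hν, h3, h4, h5⟩ := hδ
  have hF : ∀ (z : Fin n → Bool) (θ : R → ℝ), law q (List.ofFn z) = ∑ r, θ r • io (g r) →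
      ∀ F : List Bool → ℝ, ∑ K : Fin n → Bool, maskWeight q K * F (trace z K) =
        ∑ r, θ r * F (g r) := by
    intro z θ h F
    rw [← sum_io_apply g θ F, ← h, ← trace_repr, sum_io_apply]
  have hmass : ∀ (z : Fin n → Bool) (θ : R → ℝ),
      law q (List.ofFn z) = ∑ r, θ r • io (g r) → ∑ r, θ r = 1 := by
    intro z θ h
    have := sum_io_apply g θ (fun _ => 1)
    rw [← h, law_one] at this
    simpa using this.symm
  have hμ1 := hmass x μ h3
  have hν1 := hmass y ν h4
  have hsx : successProb q est x =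
      ∑ s : Fin m → R, (∏ j, μ (s j)) * est (fun j => g (s j)) x :=
    transfer (maskWeight q) (trace x) μ g (hF x μ h3) m (fun t => est t x)
  have hsy : successProb q est y =
      ∑ s : Fin m → R, (∏ j, ν (s j)) * est (fun j => g (s j)) y :=
    transfer (maskWeight q) (trace y) ν g (hF y ν h4) m (fun t => est t y)
  rw [hsx] at hx
  rw [hsy] at hy
  set a : (Fin m → R) → ℝ := fun s => est (fun j => g (s j)) x with ha
  set b : (Fin m → R) → ℝ := fun s => est (fun j => g (s j)) y with hb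
  set M : (Fin m → R) → ℝ := fun s => ∏ j, μ (s j) with hM
  set N : (Fin m → R) → ℝ := fun s => ∏ j, ν (s j) with hN
  have hM0 : ∀ s, 0 ≤ M s := fun s => Finset.prod_nonneg (fun j _ => hμ _)
  have hN0 : ∀ s, 0 ≤ N s := fun s => Finset.prod_nonneg (fun j _ => hν _)
  have ha0 : ∀ s, 0 ≤ a s := fun s => hest.1 _ _
  have hb0 : ∀ s, 0 ≤ b s := fun s => hest.1 _ _
  have hab : ∀ s, a s + b s ≤ 1 := by
    intro s
    have h1 := hest.2 (fun j => g (s j))
    rw [← h1]
    have : est (fun j => g (s j)) x + est (fun j => g (s j)) y =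
        ∑ z ∈ ({x, y} : Finset (Fin n → Bool)), est (fun j => g (s j)) z := by
      rw [Finset.sum_pair hxy]
    rw [ha, hb]
    simp only
    rw [this]
    exact Finset.sum_le_sum_of_subset_of_nonneg (Finset.subset_univ _)
      (fun i _ _ => hest.1 _ _)
  have hMs : ∑ s, M s = 1 := by
    have := Fintype.sum_pow μ m
    rw [hμ1, one_pow] at this
    exact this.symm
  have hNs : ∑ s, N s = 1 := by
    have := Fintype.sum_pow ν m
    rw [hν1, one_pow] at this
    exact this.symm
  have hBC : (∑ r, √(μ r * ν r)) ^ m = ∑ s, √(M s * N s) := by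
    rw [Fintype.sum_pow]
    apply Finset.sum_congr rfl
    intro s _
    rw [hM, hN]
    simp only
    rw [← Finset.prod_mul_distrib, Real.sqrt_prod]
    intro i _
    exact mul_nonneg (hμ _) (hν _)
  have hpt : ∀ s, √(M s * N s) ≤
      (7 / 10 * M s + N s / (7 / 10)) / 2 * a s +
      (10 / 7 * M s + N s / (10 / 7)) / 2 * (1 - a s) := by
    intro s
    have h1 := sqrt_le_lin (hM0 s) (hN0 s) (t := 7 / 10) (by norm_num)
    have h2 := sqrt_le_lin (hM0 s) (hN0 s) (t := 10 / 7) (by norm_num)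
    have h3 : 0 ≤ 1 - a s := by linarith [hab s, hb0 s]
    calc √(M s * N s) = √(M s * N s) * a s + √(M s * N s) * (1 - a s) := by ring
      _ ≤ _ := add_le_add (mul_le_mul_of_nonneg_right h1 (ha0 s))
            (mul_le_mul_of_nonneg_right h2 h3)
  have hNa : ∑ s, N s * a s ≤ 1 / 3 := by
    have h1 : ∑ s, N s * a s + ∑ s, N s * b s ≤ 1 := by
      rw [← Finset.sum_add_distrib, ← hNs]
      apply Finset.sum_le_sum
      intro s _
      nlinarith [hN0 s, hab s]
    linarith
  have hsum : ∑ s, √(M s * N s) ≤ 33 / 35 := by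
    calc ∑ s, √(M s * N s) ≤ ∑ s, ((7 / 10 * M s + N s / (7 / 10)) / 2 * a s +
          (10 / 7 * M s + N s / (10 / 7)) / 2 * (1 - a s)) :=
          Finset.sum_le_sum (fun s _ => hpt s)
      _ = (5 / 7) * ∑ s, M s + (7 / 20) * ∑ s, N s - (51 / 140) * ∑ s, M s * a s
            + (51 / 140) * ∑ s, N s * a s := by
          rw [Finset.mul_sum, Finset.mul_sum, Finset.mul_sum, Finset.mul_sum,
            ← Finset.sum_add_distrib, ← Finset.sum_sub_distrib, ← Finset.sum_add_distrib]
          apply Finset.sum_congr rfl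
          intro s _
          ring
      _ ≤ 33 / 35 := by
          rw [hMs, hNs]
          have : 2 / 3 ≤ ∑ s, M s * a s := hx
          linarith
  have hbc1 : 1 - δ ≤ ∑ r, √(μ r * ν r) := by
    have : ∑ r, ((μ r + ν r) / 2 - √(μ r * ν r)) = 1 - ∑ r, √(μ r * ν r) := by
      rw [Finset.sum_sub_distrib, ← Finset.sum_div, Finset.sum_add_distrib, hμ1, hν1]
      norm_num
    linarith
  have hbc0 : 0 ≤ ∑ r, √(μ r * ν r) := Finset.sum_nonneg (fun r _ => Real.sqrt_nonneg _)
  have hbern := one_add_mul_le_pow (a := ∑ r, √(μ r * ν r) - 1) (by linarith) m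
  have e : (1 + (∑ r, √(μ r * ν r) - 1)) = ∑ r, √(μ r * ν r) := by ring
  rw [e, hBC] at hbern
  have hm : (m : ℝ) * (-δ) ≤ m * (∑ r, √(μ r * ν r) - 1) :=
    mul_le_mul_of_nonneg_left (by linarith) (Nat.cast_nonneg m)
  linarith

end Vale.Agent.H26P321
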